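import Vale.Agent.P106.U.H377.FunLab

/-!
# P106 / U / H377 : the entropy of the digits of a label

* `hc_fl1_diam` : one real number known up to `N 2^-s` has `s` digits of bounded entropy.
* `ad l o` : adapted distance of two rays, `ad_sub` : in a time block.
* `hc_dg` : the digits `dg b R F r` given `Y`, if the rays and the two values of the functional are known given `Y` up to
  the units.
* `fuW W` : the functional of a box; `v0_fuW`, `v1_fuW` : its values on the rays of the box.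
-/

set_option autoImplicit false

namespace Vale.Agent.P106.U.FL

open Finset Vale.Agent.P127 Vale.Agent.P127.Stk Vale.Agent.P127.U Vale.Agent.P106.W Vale.Agent.P106.K
open Vale.Agent.P106.U
open Vale.Agent.P122.C2 (fn)
open Vale.Agent.P127.Stk.Bs (fl_close fl1_close hc_fl_diam)

variable {Ω : Type} [Fintype Ω] {T : Type*}

theorem hc_fl1_diam (P : Law Ω) (s N : ℕ) (v : Ω → ℝ) (Y : Ω → T)
    (h : ∀ ω ω', 0 < P.w ω → 0 < P.w ω' → Y ω = Y ω' → |v ω - v ω'| ≤ N * (1 / 2 : ℝ) ^ s) :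
    hc P (fun ω => fl1 s (v ω)) Y ≤ Real.log (2 * N + 3) := by
  have h1 := hc_fl_diam P s N (fun ω (_ : Unit) => v ω) Y (fun ω ω' a b c _ => h ω ω' a b c)
  have h2 : hc P (fun ω => fl1 s (v ω)) Y ≤ hc P (fun ω => fl s (fun (_ : Unit) => v ω)) Y := by
    refine hc_mono_left P ?_
    intro ω ω' _ _ e
    simp only [Prod.mk.injEq] at e
    exact congrFun e.1 ()
  simp only [Fintype.card_unit, Nat.cast_one, one_mul] at h1
  exact h2.trans h1

/-- adapted distance of two rays -/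
noncomputable def ad (l o : Ry) : ℝ := l.z + ∑ k, l.y k * (l.s k - o.s k) - o.z

theorem ad_sub (m : ℕ) (q : ℝ) (l o : Ry) :
    ad (sub m q l) (sub m q o) = 2 ^ m * (ad l o + q * (∑ k, (l.s k - o.s k) ^ 2) / 2) := by
  unfold ad sub
  simp only [Fin.sum_univ_two]
  ring

/-- the adapted distance from the distances to a third ray -/
theorem ad_eq (l o w : Ry) :
    ad l o = ad l w - ad o w + ∑ k, (l.y k - o.y k) * (w.s k - o.s k) := by
  unfold ad
  simp only [Fin.sum_univ_two]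
  ring

theorem hc_dg (P : Law Ω) (F : Ω → Fu) (r : Ω → Ry) (Y : Ω → T) (b R N : ℕ)
    (h : ∀ ω ω', 0 < P.w ω → 0 < P.w ω' → Y ω = Y ω' →
      (∀ k, |(r ω).y k - (r ω').y k| ≤ N * (1 / 2) ^ b) ∧
      (∀ k, |(r ω).s k - (r ω').s k| ≤ N * (1 / 2) ^ b) ∧
      |ad (r ω) (r ω')| ≤ N * (1 / 2) ^ (2 * b) ∧
      |(F ω).v0 (r ω) - (F ω').v0 (r ω')| ≤ N * (1 / 2) ^ R ∧
      |(F ω).v1 (r ω) - (F ω').v1 (r ω')| ≤ N * (1 / 2) ^ R) :
    hc P (fun ω => dg b R (F ω) (r ω)) Y ≤ 7 * Real.log (6 * N + 3) := by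
  have hlog : Real.log (2 * N + 3) ≤ Real.log (6 * N + 3) :=
    Real.log_le_log (by positivity) (by linarith [(Nat.cast_nonneg N : (0 : ℝ) ≤ N)])
  have a1 : hc P (fun ω => fl b (r ω).s) Y ≤ 2 * Real.log (2 * N + 3) := by
    have := hc_fl_diam P b N (fun ω => (r ω).s) Y fun ω ω' a b c => (h ω ω' a b c).2.1
    simpa using this
  have a2 : hc P (fun ω => fl b (r ω).y) (fun ω => (fl b (r ω).s, Y ω)) ≤
      2 * Real.log (2 * N + 3) := by
    have := hc_fl_diam P b N (fun ω => (r ω).y) (fun ω => (fl b (r ω).s, Y ω))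
      fun ω ω' a b c => (h ω ω' a b (congrArg Prod.snd c)).1
    simpa using this
  have a3 : hc P (fun ω => fl1 (2 * b) ((r ω).z + ∑ k, (r ω).y k * ((r ω).s k -
      (fl b (r ω).s k : ℝ) / 2 ^ b))) (fun ω => (fl b (r ω).y, fl b (r ω).s, Y ω)) ≤
      Real.log (2 * (3 * N : ℕ) + 3) := by
    refine hc_fl1_diam P (2 * b) (3 * N) _ _ ?_
    intro ω ω' hω hω' e
    simp only [Prod.mk.injEq] at e
    obtain ⟨h1, h2, h3, _, _⟩ := h ω ω' hω hω' e.2.2
    have hb : (0 : ℝ) < (1 / 2) ^ b := by positivity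
    have h5 : ∀ k, |(r ω').s k - (fl b (r ω').s k : ℝ) / 2 ^ b| ≤ (1 / 2) ^ b := by
      intro k
      have e1 := Int.floor_le ((2 : ℝ) ^ b * (r ω').s k)
      have e2 := Int.lt_floor_add_one ((2 : ℝ) ^ b * (r ω').s k)
      have e3 : (r ω').s k - (fl b (r ω').s k : ℝ) / 2 ^ b =
          ((2 : ℝ) ^ b * (r ω').s k - (⌊(2 : ℝ) ^ b * (r ω').s k⌋ : ℝ)) * (1 / 2) ^ b := by
        unfold fl
        rw [one_div, inv_pow]
        field_simp
      rw [e3, abs_mul, abs_of_pos hb]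
      refine mul_le_of_le_one_left hb.le ?_
      rw [abs_le]
      constructor <;> linarith
    have e0 : ((r ω).z + ∑ k, (r ω).y k * ((r ω).s k - (fl b (r ω).s k : ℝ) / 2 ^ b)) -
        ((r ω').z + ∑ k, (r ω').y k * ((r ω').s k - (fl b (r ω').s k : ℝ) / 2 ^ b)) =
        ad (r ω) (r ω') + ∑ k, ((r ω).y k - (r ω').y k) *
          ((r ω').s k - (fl b (r ω').s k : ℝ) / 2 ^ b) := by
      rw [e.2.1]
      unfold ad
      simp only [Fin.sum_univ_two]
      ring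
    have h6 : |∑ k, ((r ω).y k - (r ω').y k) * ((r ω').s k - (fl b (r ω').s k : ℝ) / 2 ^ b)| ≤
        2 * N * ((1 / 2) ^ b) ^ 2 := by
      refine (Finset.abs_sum_le_sum_abs _ _).trans ?_
      rw [Fin.sum_univ_two, abs_mul, abs_mul]
      have hN : 0 ≤ (N : ℝ) * (1 / 2) ^ b := by positivity
      have a1 := mul_le_mul (h1 0) (h5 0) (abs_nonneg _) hN
      have a2 := mul_le_mul (h1 1) (h5 1) (abs_nonneg _) hN
      nlinarith
    rw [e0]
    refine (abs_add_le _ _).trans ?_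
    have e7 : ((1 / 2 : ℝ) ^ (2 * b)) = ((1 / 2) ^ b) ^ 2 := by rw [mul_comm, pow_mul]
    rw [e7] at h3 ⊢
    push_cast
    linarith
  have a4 : hc P (fun ω => fl1 R ((F ω).v0 (r ω))) (fun ω => (pl b (r ω), Y ω)) ≤
      Real.log (2 * N + 3) := by
    refine hc_fl1_diam P R N _ _ ?_
    intro ω ω' hω hω' e
    exact (h ω ω' hω hω' (congrArg Prod.snd e)).2.2.2.1
  have a5 : hc P (fun ω => fl1 R ((F ω).v1 (r ω)))
      (fun ω => (fl1 R ((F ω).v0 (r ω)), pl b (r ω), Y ω)) ≤ Real.log (2 * N + 3) := by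
    refine hc_fl1_diam P R N _ _ ?_
    intro ω ω' hω hω' e
    simp only [Prod.mk.injEq] at e
    exact (h ω ω' hω hω' e.2.2).2.2.2.2
  have e1 : hc P (fun ω => dg b R (F ω) (r ω)) Y = hc P (fun ω => pl b (r ω)) Y +
      hc P (fun ω => (fl1 R ((F ω).v0 (r ω)), fl1 R ((F ω).v1 (r ω))))
        (fun ω => (pl b (r ω), Y ω)) := by
    unfold dg
    exact hc_pair P _ _ _
  have e2 : hc P (fun ω => (fl1 R ((F ω).v0 (r ω)), fl1 R ((F ω).v1 (r ω))))
      (fun ω => (pl b (r ω), Y ω)) = hc P (fun ω => fl1 R ((F ω).v0 (r ω)))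
        (fun ω => (pl b (r ω), Y ω)) + hc P (fun ω => fl1 R ((F ω).v1 (r ω)))
      (fun ω => (fl1 R ((F ω).v0 (r ω)), pl b (r ω), Y ω)) := hc_pair P _ _ _
  have e3 : hc P (fun ω => pl b (r ω)) Y = hc P (fun ω => fl b (r ω).s) Y +
      (hc P (fun ω => fl b (r ω).y) (fun ω => (fl b (r ω).s, Y ω)) +
      hc P (fun ω => fl1 (2 * b) ((r ω).z + ∑ k, (r ω).y k * ((r ω).s k -
      (fl b (r ω).s k : ℝ) / 2 ^ b))) (fun ω => (fl b (r ω).y, fl b (r ω).s, Y ω))) := by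
    unfold pl plm
    rw [hc_pair, hc_pair]
  have h3N : Real.log (2 * (3 * N : ℕ) + 3) = Real.log (6 * N + 3) := by
    congr 1
    push_cast
    ring
  rw [h3N] at a3
  rw [e1, e2, e3]
  linarith

/-- the functional of a box -/
noncomputable def fuW (W : Cbx) : Fu :=
  ⟨fun k => (if k = 0 then -Real.sin W.θ else Real.cos W.θ) - W.κ * W.v k + 2 * W.α * W.p k, W.κ, W.α⟩

/-- the centre of a box -/
def cenW (W : Cbx) : Ry := ⟨W.p, W.v, W.ω⟩

theorem v0_fuW (W : Cbx) (l : Ry) : (fuW W).v0 l - (fuW W).v0 (cenW W) =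
    fn W.θ (l.y - W.p) + W.κ * (l.z + ∑ k, l.y k * (l.s k - W.v k) - W.ω) -
      W.α * ∑ k, (l.y k - W.p k) ^ 2 := by
  unfold fuW cenW Fu.v0 fn
  simp only [Fin.sum_univ_two, Pi.sub_apply]
  simp
  ring

theorem v1_fuW (W : Cbx) (l : Ry) : (fuW W).v1 l - (fuW W).v1 (cenW W) =
    fn W.θ (l.s - W.v) + W.κ * (∑ k, (l.s k - W.v k) ^ 2) / 2 +
      2 * W.α * (l.z + ∑ k, W.p k * (l.s k - W.v k) - W.ω) := by
  unfold fuW cenW Fu.v1 fn
  simp only [Fin.sum_univ_two, Pi.sub_apply]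
  simp
  ring

/-- the values of the functional of a box on two rays of the box -/
theorem fuW_close {c : ℝ} {W : Cbx} {l o : Ry} (hl : Bin c W 0 l) (ho : Bin c W 0 o) :
    |(fuW W).v0 l - (fuW W).v0 o| ≤ 2 * c * W.u1 ∧ |(fuW W).v1 l - (fuW W).v1 o| ≤ 2 * c * W.u1 := by
  obtain ⟨_, _, _, h4, h5⟩ := hl
  obtain ⟨_, _, _, k4, k5⟩ := ho
  rw [← v0_fuW] at h4 k4
  rw [← v1_fuW] at h5 k5
  constructor
  · have : (fuW W).v0 l - (fuW W).v0 o = ((fuW W).v0 l - (fuW W).v0 (cenW W)) -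
      ((fuW W).v0 o - (fuW W).v0 (cenW W)) := by ring
    rw [this]
    refine (abs_sub _ _).trans ?_
    linarith
  · have : (fuW W).v1 l - (fuW W).v1 o = ((fuW W).v1 l - (fuW W).v1 (cenW W)) -
      ((fuW W).v1 o - (fuW W).v1 (cenW W)) := by ring
    rw [this]
    refine (abs_sub _ _).trans ?_
    linarith

/-- two rays of a box -/
theorem bin_close {c : ℝ} {W : Cbx} {l o : Ry} (hc : 0 ≤ c) (hl : Bin c W 0 l) (ho : Bin c W 0 o) :
    (∀ k, |l.y k - o.y k| ≤ 2 * c * W.u2) ∧ (∀ k, |l.s k - o.s k| ≤ 2 * c * W.u2) ∧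
      |ad l o| ≤ (2 * c + 4 * c ^ 2) * W.u2 ^ 2 := by
  obtain ⟨h1, h2, h3, _, _⟩ := hl
  obtain ⟨k1, k2, k3, _, _⟩ := ho
  rw [max_eq_left (by positivity)] at h3 k3
  have y1 : ∀ k, |l.y k - o.y k| ≤ 2 * c * W.u2 := by
    intro k
    have : l.y k - o.y k = (l.y k - W.p k) - (o.y k - W.p k) := by ring
    rw [this]
    refine (abs_sub _ _).trans ?_
    linarith [h1 k, k1 k]
  have y2 : ∀ k, |l.s k - o.s k| ≤ 2 * c * W.u2 := by
    intro k
    have : l.s k - o.s k = (l.s k - W.v k) - (o.s k - W.v k) := by ring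
    rw [this]
    refine (abs_sub _ _).trans ?_
    linarith [h2 k, k2 k]
  refine ⟨y1, y2, ?_⟩
  have hu : 0 ≤ c * W.u2 := (abs_nonneg _).trans (h1 0)
  rw [ad_eq l o (cenW W)]
  have e1 : |∑ k, (l.y k - o.y k) * ((cenW W).s k - o.s k)| ≤ 4 * c ^ 2 * W.u2 ^ 2 := by
    refine (Finset.abs_sum_le_sum_abs _ _).trans ?_
    rw [Fin.sum_univ_two, abs_mul, abs_mul]
    have g : ∀ k, |(cenW W).s k - o.s k| ≤ c * W.u2 := fun k => by
      rw [abs_sub_comm]
      exact k2 k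
    have a1 := mul_le_mul (y1 0) (g 0) (abs_nonneg _) (by linarith)
    have a2 := mul_le_mul (y1 1) (g 1) (abs_nonneg _) (by linarith)
    nlinarith
  have e2 : |ad l (cenW W)| ≤ c * W.u2 ^ 2 := h3
  have e3 : |ad o (cenW W)| ≤ c * W.u2 ^ 2 := k3
  calc |ad l (cenW W) - ad o (cenW W) + ∑ k, (l.y k - o.y k) * ((cenW W).s k - o.s k)|
      ≤ |ad l (cenW W) - ad o (cenW W)| + |∑ k, (l.y k - o.y k) * ((cenW W).s k - o.s k)| :=
        abs_add_le _ _
    _ ≤ (|ad l (cenW W)| + |ad o (cenW W)|) + 4 * c ^ 2 * W.u2 ^ 2 :=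
        add_le_add (abs_sub _ _) e1
    _ ≤ (2 * c + 4 * c ^ 2) * W.u2 ^ 2 := by linarith

end Vale.Agent.P106.U.FL
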