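import Vale.Agent.P106.U.H377.Lat

/-!
# P106 / U / H377 : [LAT] with side coordinates

* `lat_side` : `d` approximate translations spanning `R^d` which do not move the side coordinates `w` saturate `⌊X⌋` given
  `(⌊X / L⌋, ⌊w⌋)`.
* `sat1` : the case `d = 1` (block T3): one shift `τ` of the number `n`.
-/

set_option autoImplicit false

namespace Vale.Agent.P106.U.LatV

open Finset Vale.Agent.P127 Vale.Agent.P127.Stk Vale.Agent.P106.U.EndA
open Vale.Agent.P127.TV (Tr SubC spread)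

variable {d : ℕ} {Ω : Type} [Fintype Ω]

/-- the lattice of translations, with side coordinates -/
theorem tr_lat_side {κ : Type} (Q : Law Ω) (X : Ω → Fin d → ℝ) (w : Ω → κ → ℝ)
    (u : Fin d → Fin d → ℝ) (ε : Fin d → ℝ) (ρ : ℝ)
    (R : ℕ) (hρ : 0 ≤ ρ) (hR : d * (R * ρ) ≤ 1)
    (h : ∀ k, SubC Q Q (fun a b => (∀ i, |X b i - X a i - u k i| ≤ ρ) ∧ ∀ i, |w b i - w a i| ≤ ρ) (ε k))
    (n : Fin d → Fin R) :
    SubC Q Q (fun a b => (∀ i, |X b i - X a i - ∑ k, (n k : ℝ) * u k i| ≤ 1) ∧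
      ∀ i, |w b i - w a i| ≤ 1) (R * ∑ k, ε k) := by
  have h0 : ∀ k, Tr Q (fun ω => Sum.elim (X ω) (w ω)) (Sum.elim (u k) (fun _ => 0)) (fun _ => ρ)
      (ε k) := by
    intro k
    refine SubC.mono (h k) ?_ le_rfl
    rintro a b ⟨h1, h2⟩ (i | i)
    · exact h1 i
    · have := h2 i
      simpa using this
  have h1 := tr_sum Q (fun ω => Sum.elim (X ω) (w ω)) (univ : Finset (Fin d))
    (fun k i => ((n k : ℕ) : ℝ) * Sum.elim (u k) (fun _ => 0) i)
    (fun k _ => ((n k : ℕ) : ℝ) * ρ) (fun k => ((n k : ℕ) : ℝ) * ε k)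
    (fun k _ => (h0 k).nsmul (n k : ℕ))
  have hn : ∀ k, ((n k : ℕ) : ℝ) ≤ R := fun k => by exact_mod_cast (n k).2.le
  have hsum : ∑ k, ((n k : ℕ) : ℝ) * ρ ≤ 1 := by
    calc ∑ k, ((n k : ℕ) : ℝ) * ρ ≤ ∑ _k : Fin d, (R : ℝ) * ρ :=
          Finset.sum_le_sum fun k _ => mul_le_mul_of_nonneg_right (hn k) hρ
      _ = d * (R * ρ) := by simp
      _ ≤ 1 := hR
  refine SubC.mono h1 ?_ ?_
  · intro a b hab
    refine ⟨fun i => ?_, fun i => ?_⟩
    · have := hab (Sum.inl i)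
      simp only [Sum.elim_inl] at this
      exact this.trans hsum
    · have := hab (Sum.inr i)
      simp only [Sum.elim_inr, mul_zero, Finset.sum_const_zero, sub_zero] at this
      exact this.trans hsum
  · rw [Finset.mul_sum]
    exact Finset.sum_le_sum fun k _ => mul_le_mul_of_nonneg_right (hn k) (subC_nonneg (h k))

theorem floor_near {x y : ℝ} (h : |y - x| ≤ 1) : ⌊y⌋ ∈ Finset.Icc (⌊x⌋ - 1) (⌊x⌋ + 1) := by
  rw [abs_le] at h
  rw [Finset.mem_Icc]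
  constructor
  · have : ⌊x⌋ ≤ ⌊y + 1⌋ := Int.floor_mono (by linarith)
    rw [Int.floor_add_one] at this
    omega
  · have : ⌊y⌋ ≤ ⌊x + 1⌋ := Int.floor_mono (by linarith)
    rw [Int.floor_add_one] at this
    omega

/-- **[LAT] with side coordinates** -/
theorem lat_side (d : ℕ) : ∃ c : ℝ, 0 ≤ c ∧ ∀ {Ω : Type} [Fintype Ω] {κ : Type} [Fintype κ]
    (Q : Law Ω) (X : Ω → Fin d → ℝ) (w : Ω → κ → ℝ)
    (u : Fin d → Fin d → ℝ) (ε : Fin d → ℝ) (ρ δ L : ℝ) (R : ℕ),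
    (∀ k i, |u k i| ≤ 2) → 0 < δ → δ ≤ |(Matrix.of u).det| → 1 ≤ L → c * L ≤ R * δ → 0 ≤ ρ →
    c * (R * ρ) ≤ 1 → 1 ≤ R →
    (∀ k, SubC Q Q (fun a b => (∀ i, |X b i - X a i - u k i| ≤ ρ) ∧ ∀ i, |w b i - w a i| ≤ ρ)
      (ε k)) →
    d * Real.log L - c - Fintype.card κ * Real.log 3 - c * (R * (1 + Real.log R)) * ∑ k, ε k ≤
      hc Q (fun ω k => ⌊X ω k⌋) (fun ω => ((fun k => ⌊X ω k / L⌋), fun i => ⌊w ω i⌋)) := by
  classical
  set B : ℝ := C1 d * (4 * d + 4) ^ d with hB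
  have hC1 := one_le_C1 d
  have hd0 : (0 : ℝ) ≤ d := Nat.cast_nonneg d
  have h4d : (1 : ℝ) ≤ (4 * d + 4) ^ d := one_le_pow₀ (by linarith)
  have hB1 : 1 ≤ B := by
    rw [hB]
    nlinarith
  have h3d : (1 : ℝ) ≤ 3 ^ d := one_le_pow₀ (by norm_num)
  have hlB : 0 ≤ Real.log (B * 3 ^ d) := by
    refine Real.log_nonneg ?_
    nlinarith
  have hCd : 0 ≤ 2 * (d + 1) * C1 d := by positivity
  refine ⟨Real.log (B * 3 ^ d) + 2 * (d + 1) * C1 d + d + 1, by linarith, ?_⟩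
  intro Ω _ κ _ Q X w u ε ρ δ L R hu hδ hdet hL hLR hρ hcR hR htr
  set c : ℝ := Real.log (B * 3 ^ d) + 2 * (d + 1) * C1 d + d + 1 with hcd
  have hL0 : 0 < L := by linarith
  have hRr : (1 : ℝ) ≤ R := by exact_mod_cast hR
  have hR0 : (0 : ℝ) < R := by linarith
  have hdetp : 0 < |(Matrix.of u).det| := hδ.trans_le hdet
  have hdetC : |(Matrix.of u).det| ≤ C1 d := det_le' (Matrix.of u) hu
  have hdC : 0 ≤ 2 * d * C1 d := by positivity
  have hdR : d * (R * ρ) ≤ 1 := by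
    refine le_trans (mul_le_mul_of_nonneg_right ?_ (by positivity)) hcR
    linarith
  have hεs : 0 ≤ ∑ k, ε k := Finset.sum_nonneg fun k _ => subC_nonneg (htr k)
  have : Nonempty (Fin d → Fin R) := ⟨fun _ => ⟨0, hR⟩⟩
  have hBd : (4 * d + 4) ^ d / |(Matrix.of u).det| ≤ B / |(Matrix.of u).det| := by
    refine div_le_div_of_nonneg_right ?_ hdetp.le
    rw [hB]
    nlinarith
  have h1x0 : 1 ≤ B / |(Matrix.of u).det| := by
    rw [le_div_iff₀ hdetp, one_mul]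
    refine hdetC.trans ?_
    rw [hB]
    nlinarith
  have h1x1 : 1 ≤ |(Matrix.of u).det| * (3 * R) ^ d / L ^ d := by
    refine x1_ge δ L _ R hδ hdet hdetC hL (le_trans ?_ hLR) ?_
    · refine mul_le_mul_of_nonneg_right ?_ hL0.le
      have : C1 d ≤ 2 * (d + 1) * C1 d := by nlinarith
      linarith
    · intro h0
      subst h0
      simp
  have hLR2 : (2 * d * C1 d) * L ≤ R * δ := by
    refine le_trans (mul_le_mul_of_nonneg_right ?_ hL0.le) hLR
    have : 2 * d * C1 d ≤ 2 * (d + 1) * C1 d := by nlinarith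
    linarith
  have key := spread Q (K := Fin d → Fin R)
    (fun n a b => (∀ i, |X b i - X a i - ∑ k, ((n k : ℕ) : ℝ) * u k i| ≤ 1) ∧
      ∀ i, |w b i - w a i| ≤ 1)
    (fun _ => R * ∑ k, ε k)
    (fun n => tr_lat_side Q X w u ε ρ R hρ hdR htr n)
    (fun ω k => ⌊X ω k⌋) (fun ω => ((fun k => ⌊X ω k / L⌋), fun i => ⌊w ω i⌋))
    ⌊B / |(Matrix.of u).det|⌋₊
    (⌊|(Matrix.of u).det| * (3 * R) ^ d / L ^ d⌋₊ * 3 ^ Fintype.card κ) ?_ ?_
  · have hcard : (Fintype.card (Fin d → Fin R) : ℝ) = (R : ℝ) ^ d := by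
      rw [Fintype.card_fun, Fintype.card_fin, Fintype.card_fin]
      push_cast
      rfl
    have hcp : (0 : ℝ) < (R : ℝ) ^ d := by positivity
    have hsum : (∑ _k : Fin d → Fin R, R * ∑ k, ε k) / Fintype.card (Fin d → Fin R) =
        R * ∑ k, ε k := by
      rw [Finset.sum_const, Finset.card_univ, nsmul_eq_mul, mul_comm, mul_div_assoc, div_self,
        mul_one]
      rw [hcard]
      exact hcp.ne'
    have hfl : 0 < ⌊|(Matrix.of u).det| * (3 * R) ^ d / L ^ d⌋₊ := Nat.floor_pos.2 h1x1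
    rw [hsum, hcard, Real.log_pow] at key
    rw [show ((⌊|(Matrix.of u).det| * (3 * R) ^ d / L ^ d⌋₊ * 3 ^ Fintype.card κ : ℕ) : ℝ) =
      (⌊|(Matrix.of u).det| * (3 * R) ^ d / L ^ d⌋₊ : ℝ) * 3 ^ Fintype.card κ by push_cast; ring,
      Real.log_mul (by exact_mod_cast hfl.ne') (by positivity), Real.log_pow] at key
    have e0 := Vale.Agent.P127.TV.Lat.log_floor_le h1x0
    have e1 := Vale.Agent.P127.TV.Lat.log_floor_le h1x1
    have e3 := fin_arith B |(Matrix.of u).det| L R (∑ k, ε k) c d hB1 hdetp hL hRr hεs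
      (by linarith) (by linarith)
      (hc Q (fun ω k => ⌊X ω k⌋) (fun ω => ((fun k => ⌊X ω k / L⌋), fun i => ⌊w ω i⌋)) +
        Fintype.card κ * Real.log 3) (by linarith)
    linarith
  · intro a b _ _
    refine ⟨univ.filter fun n : Fin d → Fin R => ∃ b', (∀ i, |X b' i - X a i -
      ∑ k, ((n k : ℕ) : ℝ) * u k i| ≤ 1) ∧ (fun k => ⌊X b' k⌋) = fun k => ⌊X b k⌋, ?_, ?_⟩
    · refine Nat.le_floor ((fib_cnt X u R hu hdetp a b _ fun n hn => ?_).trans hBd)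
      rw [Finset.mem_filter] at hn
      exact hn.2
    · intro n b' _ hn hf
      rw [Finset.mem_filter]
      exact ⟨Finset.mem_univ _, b', hn.1, hf⟩
  · intro a _
    refine ⟨((univ.filter fun b : Ω => ∃ n : Fin d → Fin R, ∀ i, |X b i - X a i -
      ∑ k, ((n k : ℕ) : ℝ) * u k i| ≤ 1).image fun b => (fun k => ⌊X b k / L⌋)) ×ˢ
      (Fintype.piFinset fun i => Finset.Icc (⌊w a i⌋ - 1) (⌊w a i⌋ + 1)), ?_, ?_⟩
    · rw [Finset.card_product, Fintype.card_piFinset]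
      have e3 : ∏ i, (Finset.Icc (⌊w a i⌋ - 1) (⌊w a i⌋ + 1)).card = 3 ^ Fintype.card κ := by
        have : ∀ i, (Finset.Icc (⌊w a i⌋ - 1) (⌊w a i⌋ + 1)).card = 3 := by
          intro i
          rw [Int.card_Icc]
          omega
        simp only [this, Finset.prod_const, Finset.card_univ]
      rw [e3]
      refine Nat.mul_le_mul_right _ ?_
      refine Nat.le_floor (crs_cnt X u R δ L hu hδ hdet hL hLR2 a _ fun q hq => ?_)
      rw [Finset.mem_image] at hq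
      obtain ⟨b, hb, rfl⟩ := hq
      rw [Finset.mem_filter] at hb
      obtain ⟨n, hn⟩ := hb.2
      exact ⟨n, b, hn, rfl⟩
    · intro n b _ hn
      rw [Finset.mem_product, Finset.mem_image, Fintype.mem_piFinset]
      exact ⟨⟨b, by rw [Finset.mem_filter]; exact ⟨Finset.mem_univ _, n, hn.1⟩, rfl⟩,
        fun i => floor_near (hn.2 i)⟩

/-- **[T3]** one shift `τ` of the number `n`, the side coordinates `w` do not move -/
theorem sat1 : ∃ c : ℝ, 0 ≤ c ∧ ∀ {Ω : Type} [Fintype Ω] {κ : Type} [Fintype κ]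
    (Q : Law Ω) (n : Ω → ℝ) (w : Ω → κ → ℝ) (τ ε ρ L : ℝ) (R : ℕ),
    0 < |τ| → |τ| ≤ 2 → 1 ≤ L → c * L ≤ R * |τ| → 0 ≤ ρ → c * (R * ρ) ≤ 1 → 1 ≤ R →
    SubC Q Q (fun a b => |n b - n a - τ| ≤ ρ ∧ ∀ i, |w b i - w a i| ≤ ρ) ε →
    Real.log L - c - Fintype.card κ * Real.log 3 - c * (R * (1 + Real.log R)) * ε ≤
      hc Q (fun ω => ⌊n ω⌋) (fun ω => (⌊n ω / L⌋, fun i => ⌊w ω i⌋)) := by
  obtain ⟨c, hc0, hc⟩ := lat_side 1
  refine ⟨c, hc0, ?_⟩
  intro Ω _ κ _ Q n w τ ε ρ L R hτ hτ2 hL hLR hρ hcR hR h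
  have hdet : (Matrix.of fun _ _ : Fin 1 => τ).det = τ := by simp
  have key := hc Q (fun ω (_ : Fin 1) => n ω) w (fun _ _ => τ) (fun _ => ε) ρ |τ| L R
    (fun _ _ => hτ2) hτ (by rw [hdet]) hL hLR hρ hcR hR
    (fun _ => SubC.mono h (fun a b hab => ⟨fun _ => hab.1, hab.2⟩) le_rfl)
  simp only [Nat.cast_one, one_mul, Finset.univ_unique, Finset.sum_singleton] at key
  refine key.trans (le_of_eq ?_)
  refine hc_congr Q ?_ ?_ ?_ ?_
  · intro a b _ _ e
    simp only [Prod.mk.injEq] at e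
    funext i
    exact e.1
  · intro a b _ _ e
    simp only [Prod.mk.injEq] at e
    exact congrFun e.1 0
  · intro a b _ _ e
    simp only [Prod.mk.injEq] at e
    simp only [Prod.mk.injEq]
    exact ⟨funext fun _ => e.1, e.2⟩
  · intro a b _ _ e
    simp only [Prod.mk.injEq] at e
    simp only [Prod.mk.injEq]
    exact ⟨congrFun e.1 0, e.2⟩

end Vale.Agent.P106.U.LatV
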