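import Vale.Agent.P106.U.H377.FrmA
import Vale.Agent.P106.U.H824.InsL

/-!
# P106 / U / H377 : light blocks given more than the ray side (helper377)

* `colp_tr` : `colp X (Y, C) ≤ colp X Y + 4 √(I(C ; X | Y))`; `phi_light` : the sum over the steps.
* `thk_le` : a thick affine line of the `(t, κ)`-plane is covered by `5` net lines of the strip of `Y` or, if it is steep,
  by `5` values of the time block.
* `line_light` : no thick line has mass given `(Y i, X i)`, at the price of the information.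
-/

set_option autoImplicit false

namespace Vale.Agent.P106.U.Frm

open Finset Vale.Agent.P127 Vale.Agent.P127.Stk Vale.Agent.P127.U.Pin Vale.Agent.P127.U.Mic
open Vale.Agent.P106.U.H683 Vale.Agent.P106.TV Vale.Agent.P106.U.StripL
open Vale.Agent.P127.U.CellD (q2 q2_pos q2_mul_pow)

section

variable {Ω : Type} [Fintype Ω] {ι ι' S T T' U : Type*} (P : Law Ω)

theorem nl_congr {E E' : ι → Ω → Prop} {Y : Ω → T}
    (h : ∀ ω, 0 < P.w ω → ∀ l, E' l ω → E l ω) : nl P E' Y ≤ nl P E Y := by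
  have := nl_map P E E' Y 1 (fun _ _ l => l) fun ω hω l hl => ⟨0, Nat.zero_lt_one, h ω hω l hl⟩
  simpa using this

/-- two kinds of sets -/
theorem nl_or2 {ι₁ ι₂ : Type*} (E₁ : ι₁ → Ω → Prop) (E₂ : ι₂ → Ω → Prop) (E' : ι' → Ω → Prop)
    (Y : Ω → T) (N₁ N₂ : ℕ) (g₁ : ℕ → T → ι' → ι₁) (g₂ : ℕ → T → ι' → ι₂)
    (h : ∀ ω, 0 < P.w ω → ∀ l, E' l ω →
      (∃ j < N₁, E₁ (g₁ j (Y ω) l) ω) ∨ ∃ j < N₂, E₂ (g₂ j (Y ω) l) ω) :
    nl P E' Y ≤ N₁ * nl P E₁ Y + N₂ * nl P E₂ Y := by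
  have h1 := nl_or P (fun l ω => ∃ j < N₁, E₁ (g₁ j (Y ω) l) ω) (fun l ω => ∃ j < N₂, E₂ (g₂ j (Y ω) l) ω)
    E' Y (fun _ l => l) (fun _ l => l) h
  have h2 := nl_map P E₁ (fun l ω => ∃ j < N₁, E₁ (g₁ j (Y ω) l) ω) Y N₁ g₁ fun _ _ _ hl => hl
  have h3 := nl_map P E₂ (fun l ω => ∃ j < N₂, E₂ (g₂ j (Y ω) l) ω) Y N₂ g₂ fun _ _ _ hl => hl
  linarith

/-- a further letter in the condition of a collision probability -/
theorem colp_tr (X : Ω → S) (Y : Ω → T) (C : Ω → U) :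
    colp P X (fun ω => (Y ω, C ω)) ≤ colp P X Y + 4 * Real.sqrt (mi P C X Y) := by
  classical
  have h1 : colp P X (fun ω => (Y ω, C ω)) ≤
      P.ex (fun ω => cq P X Y (X ω) (Y ω) +
        (cq P X (fun ω => (Y ω, C ω)) (X ω) (Y ω, C ω) - cq P X Y (X ω) (Y ω))) := by
    refine le_of_eq (P.ex_congr fun ω _ => ?_)
    ring
  rw [P.ex_add] at h1
  have h2 : P.ex (fun ω => cq P X (fun ω => (Y ω, C ω)) (X ω) (Y ω, C ω) - cq P X Y (X ω) (Y ω)) ≤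
      P.ex (fun ω => dl (P.cond (fun ω => (Y ω, C ω)) (Y ω, C ω)) X (P.cond Y (Y ω)) X) := by
    refine P.ex_mono fun ω hω => ?_
    rw [cq_eq_cond P X (fun ω => (Y ω, C ω)) (X ω) (P.pr_pos (fun ω => (Y ω, C ω)) hω),
      cq_eq_cond P X Y (X ω) (P.pr_pos Y hω)]
    have := sum_le_dl (P.cond (fun ω => (Y ω, C ω)) (Y ω, C ω)) X (P.cond Y (Y ω)) X {X ω}
    rw [Finset.sum_singleton] at this
    exact (le_abs_self _).trans this
  have h3 := pin_dl P C X Y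
  have h4 : P.ex (fun ω => cq P X Y (X ω) (Y ω)) = colp P X Y := rfl
  rw [h4] at h1
  linarith

/-- `4 √x ≤ 2 δ + (2 / δ) x` -/
theorem amgm {x δ : ℝ} (hx : 0 ≤ x) (hδ : 0 < δ) : 4 * Real.sqrt x ≤ 2 * δ + 2 / δ * x := by
  have h1 := Real.sq_sqrt hx
  have h2 : 2 * δ + 2 / δ * x - 4 * Real.sqrt x = 2 / δ * (δ - Real.sqrt x) ^ 2 := by
    rw [← h1]
    field_simp
    rw [Real.sqrt_sq (Real.sqrt_nonneg x)]
    ring
  have h3 : 0 ≤ 2 / δ * (δ - Real.sqrt x) ^ 2 := by positivity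
  linarith

/-- **light blocks given more** (time blocks, blocks of the own slope) -/
theorem phi_light (A : Finset ℕ) (f : ℕ → Ω → S) (Y : ℕ → Ω → T) {e δ₀ : ℝ} (hδ : 0 < δ₀)
    (h : ∑ i ∈ A, colp P (f i) (Y i) ≤ e) (X : ℕ → Ω → U) :
    ∑ i ∈ A, colp P (f i) (fun ω => (Y i ω, X i ω)) ≤
      (e + 2 * δ₀ * A.card) + 2 / δ₀ * ∑ i ∈ A, mi P (f i) (X i) (Y i) := by
  have h1 : ∀ i ∈ A, colp P (f i) (fun ω => (Y i ω, X i ω)) ≤
      colp P (f i) (Y i) + 2 * δ₀ + 2 / δ₀ * mi P (f i) (X i) (Y i) := by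
    intro i _
    have g1 := colp_tr P (f i) (Y i) (X i)
    have g2 := amgm (mi_nonneg P (X i) (f i) (Y i)) hδ
    rw [mi_symm P (f i) (X i) (Y i)]
    linarith
  refine (Finset.sum_le_sum h1).trans ?_
  rw [Finset.sum_add_distrib, Finset.sum_add_distrib, Finset.sum_const, nsmul_eq_mul, ← Finset.mul_sum]
  linarith

/-! ### lines -/

/-- five thinner intervals -/
theorem five {x w : ℝ} (hw : 0 ≤ w) (h : |x| ≤ 4 * w) : ∃ j < 5, |x - ((j : ℕ) - 2 : ℝ) * (2 * w)| ≤ w := by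
  rw [abs_le] at h
  by_cases h1 : x ≤ -3 * w
  · exact ⟨0, by norm_num, by rw [abs_le]; constructor <;> push_cast <;> linarith⟩
  by_cases h2 : x ≤ -w
  · exact ⟨1, by norm_num, by rw [abs_le]; constructor <;> push_cast <;> linarith⟩
  by_cases h3 : x ≤ w
  · exact ⟨2, by norm_num, by rw [abs_le]; constructor <;> push_cast <;> linarith⟩
  by_cases h4 : x ≤ 3 * w
  · exact ⟨3, by norm_num, by rw [abs_le]; constructor <;> push_cast <;> linarith⟩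
  · exact ⟨4, by norm_num, by rw [abs_le]; constructor <;> push_cast <;> linarith⟩

/-- the block of the time seen from the cell -/
theorem tb_cell (m : ℕ) (s u : ℝ) : (cP m s u).1 / 2 ^ (m + 6) = ⌊2 ^ m * s⌋ := by
  have h := Int.floor_div_natCast ((2 : ℝ) ^ (2 * m + 6) * s) (2 ^ (m + 6))
  have e : (2 : ℝ) ^ (2 * m + 6) * s / ((2 ^ (m + 6) : ℕ) : ℝ) = 2 ^ m * s := by
    push_cast
    rw [show 2 * m + 6 = m + (m + 6) by ring, pow_add (2 : ℝ) m (m + 6)]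
    field_simp
  rw [e] at h
  rw [h]
  push_cast
  rfl

/-- **thick lines of the plane against the net lines of a strip** -/
theorem thk_pt {m : ℕ} {d : Ld} {t κ A B : ℝ} (hin : d.In t κ)
    (h : |κ - (A + B * t)| ≤ q2 (d.k + m)) :
    (∃ j < 5, inc m (⌊2 ^ (m + 4) * (2 ^ d.k * (A + B * d.s0 - d.k0) + ((j : ℕ) - 2 : ℝ) * (2 * (1 / 2 ^ (m + 2))))⌋,
        ⌊2 ^ (m + 4) * (2 ^ d.k * (B - d.al) / 2 ^ d.a)⌋) (d.cl m t κ)) ∨
    ∃ j < 5, (d.cl m t κ).1 / 2 ^ (m + 6) =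
      ⌊2 ^ m * (-(2 ^ d.k * (A + B * d.s0 - d.k0)) / (2 ^ d.k * (B - d.al) / 2 ^ d.a)) - 2⌋ + ((j : ℕ) : ℤ) := by
  set c0 : ℝ := 2 ^ d.k * (A + B * d.s0 - d.k0) with hc0
  set c1 : ℝ := 2 ^ d.k * (B - d.al) / 2 ^ d.a with hc1
  have hs0 := Ld.sN_nonneg hin
  have hs1 := Ld.sN_lt hin
  have hu := Ld.uN_le hin
  have e1 : d.uN t κ - (c0 + c1 * d.sN t) = 2 ^ d.k * (κ - (A + B * t)) := by
    rw [hc0, hc1]
    unfold Ld.uN Ld.sN Ld.line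
    field_simp
    ring
  have hm0 : (0 : ℝ) < 2 ^ m := by positivity
  have e2 : |d.uN t κ - (c0 + c1 * d.sN t)| ≤ 1 / 2 ^ m := by
    rw [e1, abs_mul, abs_of_pos (by positivity : (0 : ℝ) < 2 ^ d.k)]
    calc (2 : ℝ) ^ d.k * |κ - (A + B * t)| ≤ 2 ^ d.k * q2 (d.k + m) := by gcongr
      _ = 1 / 2 ^ m := by
          unfold q2
          rw [pow_add, ← mul_assoc, ← mul_pow]
          norm_num
          rw [one_div, inv_pow]
  rcases le_or_gt |c1| (2 ^ m) with hc | hc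
  · left
    have e3 : |d.uN t κ - (c0 + c1 * d.sN t)| ≤ 4 * (1 / 2 ^ (m + 2)) := by
      refine e2.trans (le_of_eq ?_)
      rw [pow_add]
      field_simp
      norm_num
    obtain ⟨j, hj, h5⟩ := five (by positivity) e3
    refine ⟨j, hj, ?_⟩
    rw [Ld.cl_eq]
    refine inc_of_near hs0 hs1.le hc ?_
    refine le_trans (le_of_eq ?_) h5
    congr 1
    ring
  · right
    have hc1' : (0 : ℝ) < |c1| := hm0.trans hc
    have hne : c1 ≠ 0 := abs_pos.1 hc1'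
    have h6 : |c0 + c1 * d.sN t| ≤ 2 := by
      have h7 : (1 : ℝ) / 2 ^ m ≤ 1 := by
        rw [div_le_one hm0]
        exact one_le_pow₀ (by norm_num)
      have h8 := abs_sub_abs_le_abs_sub (c0 + c1 * d.sN t) (d.uN t κ)
      rw [abs_sub_comm] at h8
      linarith
    have h9 : |2 ^ m * d.sN t - 2 ^ m * (-c0 / c1)| ≤ 2 := by
      have e4 : 2 ^ m * d.sN t - 2 ^ m * (-c0 / c1) = 2 ^ m / c1 * (c0 + c1 * d.sN t) := by
        field_simp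
        ring
      rw [e4, abs_mul, abs_div, abs_of_pos hm0]
      calc 2 ^ m / |c1| * |c0 + c1 * d.sN t| ≤ 1 * 2 := by
            refine mul_le_mul ?_ h6 (abs_nonneg _) zero_le_one
            rw [div_le_one hc1']
            exact hc.le
        _ = 2 := one_mul _
    rw [Ld.cl_eq, tb_cell]
    set z : ℝ := 2 ^ m * (-c0 / c1) with hz
    rw [abs_le] at h9
    have g1 : ⌊z - 2⌋ ≤ ⌊2 ^ m * d.sN t⌋ := Int.floor_mono (by linarith)
    have g2 : ⌊2 ^ m * d.sN t⌋ ≤ ⌊z - 2⌋ + 4 := by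
      have : ⌊2 ^ m * d.sN t⌋ ≤ ⌊(z - 2) + 4⌋ := Int.floor_mono (by linarith)
      rwa [show (z - 2) + 4 = (z - 2) + ((4 : ℤ) : ℝ) by norm_num, Int.floor_add_intCast] at this
    refine ⟨(⌊2 ^ m * d.sN t⌋ - ⌊z - 2⌋).toNat, by omega, ?_⟩
    omega

/-- one step -/
theorem thk_le (m a r : ℕ) (dd : T → Ld) (Y : Ω → T) (t κ : Ω → ℝ)
    (hk : ∀ ω, 0 < P.w ω → (dd (Y ω)).k = r) (hin : ∀ ω, 0 < P.w ω → (dd (Y ω)).In (t ω) (κ ω)) :
    nl P (fun (L : ℝ × ℝ) ω => |κ ω - (L.1 + L.2 * t ω)| ≤ q2 (r + m)) Y ≤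
      5 * nl P (fun b ω => inc m b ((dd (Y ω)).cl m (t ω) (κ ω))) Y +
      5 * nl P (fun (x : ℤ) ω => ((dd (Y ω)).cl m (t ω) (κ ω)).1 / 2 ^ (m + 6) = x) Y := by
  have := nl_or2 P (fun b ω => inc m b ((dd (Y ω)).cl m (t ω) (κ ω)))
    (fun (x : ℤ) ω => ((dd (Y ω)).cl m (t ω) (κ ω)).1 / 2 ^ (m + 6) = x)
    (fun (L : ℝ × ℝ) ω => |κ ω - (L.1 + L.2 * t ω)| ≤ q2 (r + m)) Y 5 5
    (fun j y L => (⌊2 ^ (m + 4) * (2 ^ (dd y).k * (L.1 + L.2 * (dd y).s0 - (dd y).k0) +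
        ((j : ℕ) - 2 : ℝ) * (2 * (1 / 2 ^ (m + 2))))⌋,
        ⌊2 ^ (m + 4) * (2 ^ (dd y).k * (L.2 - (dd y).al) / 2 ^ (dd y).a)⌋))
    (fun j y L => ⌊2 ^ m * (-(2 ^ (dd y).k * (L.1 + L.2 * (dd y).s0 - (dd y).k0)) /
        (2 ^ (dd y).k * (L.2 - (dd y).al) / 2 ^ (dd y).a)) - 2⌋ + ((j : ℕ) : ℤ))
    fun ω hω L hL => thk_pt (hin ω hω) (by rw [hk ω hω]; exact hL)
  exact_mod_cast this

/-- the block of the time in the strip against the digits of the time -/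
theorem tb_le (m a : ℕ) (dd : T → Ld) (Y : Ω → T) (t κ : Ω → ℝ)
    (ha : ∀ ω, 0 < P.w ω → (dd (Y ω)).a = a) :
    nl P (fun (x : ℤ) ω => ((dd (Y ω)).cl m (t ω) (κ ω)).1 / 2 ^ (m + 6) = x) Y ≤
      2 * nl P (fun (x : ℤ) ω => fl1 (a + m) (t ω) = x) Y := by
  have := nl_map P (fun (x : ℤ) ω => fl1 (a + m) (t ω) = x)
    (fun (x : ℤ) ω => ((dd (Y ω)).cl m (t ω) (κ ω)).1 / 2 ^ (m + 6) = x) Y 2
    (fun j y x => ⌊2 ^ (a + m) * (dd y).s0 + x⌋ + ((j : ℕ) : ℤ)) (by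
      intro ω hω x hx
      rw [Ld.cl_eq, tb_cell] at hx
      have e : 2 ^ m * (dd (Y ω)).sN (t ω) = 2 ^ (a + m) * (t ω - (dd (Y ω)).s0) := by
        unfold Ld.sN
        rw [ha ω hω, pow_add]
        ring
      rw [e] at hx
      have h1 := Int.floor_le (2 ^ (a + m) * (t ω - (dd (Y ω)).s0))
      have h2 := Int.lt_floor_add_one (2 ^ (a + m) * (t ω - (dd (Y ω)).s0))
      rw [hx] at h1 h2
      have g1 : ⌊2 ^ (a + m) * (dd (Y ω)).s0 + (x : ℝ)⌋ ≤ fl1 (a + m) (t ω) := by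
        unfold fl1
        exact Int.floor_mono (by linarith)
      have g2 : fl1 (a + m) (t ω) ≤ ⌊2 ^ (a + m) * (dd (Y ω)).s0 + (x : ℝ)⌋ + 1 := by
        unfold fl1
        have : ⌊(2 : ℝ) ^ (a + m) * t ω⌋ ≤ ⌊(2 ^ (a + m) * (dd (Y ω)).s0 + (x : ℝ)) + ((1 : ℤ) : ℝ)⌋ :=
          Int.floor_mono (by push_cast; linarith)
        rwa [Int.floor_add_intCast] at this
      refine ⟨(fl1 (a + m) (t ω) - ⌊2 ^ (a + m) * (dd (Y ω)).s0 + (x : ℝ)⌋).toNat, by omega, ?_⟩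
      omega)
  exact_mod_cast this

/-- **no thick line has mass**, given more -/
theorem line_light (A : Finset ℕ) (m : ℕ) (a r : ℕ → ℕ) (dd : ℕ → T → Ld) (Y : ℕ → Ω → T) (t κ : Ω → ℝ)
    (hk : ∀ i ∈ A, ∀ ω, 0 < P.w ω → (dd i (Y i ω)).k = r i)
    (ha : ∀ i ∈ A, ∀ ω, 0 < P.w ω → (dd i (Y i ω)).a = a i)
    (hin : ∀ i ∈ A, ∀ ω, 0 < P.w ω → (dd i (Y i ω)).In (t ω) (κ ω)) {e₁ e₂ δ₀ : ℝ} (he₁ : 0 ≤ e₁) (hδ : 0 < δ₀)
    (h1 : ∀ s : ℕ → T → ℤ × ℤ, ∑ i ∈ A, prE P (fun ω => inc m (s i (Y i ω))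
      ((dd i (Y i ω)).cl m (t ω) (κ ω))) ≤ e₁)
    (h2 : ∑ i ∈ A, colp P (fun ω => fl1 (a i + m) (t ω)) (Y i) ≤ e₂)
    (X : ℕ → Ω → U) (x : ℕ → T × U → ℝ × ℝ) :
    ∑ i ∈ A, prE P (fun ω => |κ ω - ((x i (Y i ω, X i ω)).1 + (x i (Y i ω, X i ω)).2 * t ω)| ≤
      q2 (r i + m)) ≤ (5 * e₁ + 10 * Real.sqrt (A.card * e₂) + 20 * δ₀ * A.card) +
        20 / δ₀ * ∑ i ∈ A, mi P (fun ω => (dd i (Y i ω)).cl m (t ω) (κ ω)) (X i) (Y i) := by
  classical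
  have key : ∀ i ∈ A, prE P (fun ω => |κ ω - ((x i (Y i ω, X i ω)).1 + (x i (Y i ω, X i ω)).2 * t ω)| ≤
      q2 (r i + m)) ≤ 5 * nl P (fun b ω => inc m b ((dd i (Y i ω)).cl m (t ω) (κ ω))) (Y i) +
      10 * Real.sqrt (colp P (fun ω => fl1 (a i + m) (t ω)) (Y i)) + 20 * δ₀ +
      20 / δ₀ * mi P (fun ω => (dd i (Y i ω)).cl m (t ω) (κ ω)) (X i) (Y i) := by
    intro i hi
    have g1 := le_nl P (fun (L : ℝ × ℝ) ω => |κ ω - (L.1 + L.2 * t ω)| ≤ q2 (r i + m))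
      (fun ω => (Y i ω, X i ω)) (x i)
    have g2 := thk_le P m (a i) (r i) (fun y : T × U => dd i y.1) (fun ω => (Y i ω, X i ω)) t κ
      (hk i hi) (hin i hi)
    have g3 := nl_tr P (inc m) (fun ω => (dd i (Y i ω)).cl m (t ω) (κ ω)) (Y i) (X i)
    have g4 := nl_tr P (fun (x : ℤ) (v : ℤ × ℤ) => v.1 / 2 ^ (m + 6) = x)
      (fun ω => (dd i (Y i ω)).cl m (t ω) (κ ω)) (Y i) (X i)
    have g5 := tb_le P m (a i) (dd i) (Y i) t κ (ha i hi)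
    have g6 := nl_le_colp P (fun ω => fl1 (a i + m) (t ω)) (Y i)
    have g7 := amgm (mi_nonneg P (X i) (fun ω => (dd i (Y i ω)).cl m (t ω) (κ ω)) (Y i)) hδ
    rw [mi_symm P (fun ω => (dd i (Y i ω)).cl m (t ω) (κ ω)) (X i) (Y i)]
    rw [prE_ex]
    have g8 : (20 : ℝ) / δ₀ * mi P (X i) (fun ω => (dd i (Y i ω)).cl m (t ω) (κ ω)) (Y i) =
      10 * (2 / δ₀ * mi P (X i) (fun ω => (dd i (Y i ω)).cl m (t ω) (κ ω)) (Y i)) := by ring
    rw [g8]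
    simp only at g2
    linarith
  refine (Finset.sum_le_sum key).trans ?_
  rw [Finset.sum_add_distrib, Finset.sum_add_distrib, Finset.sum_add_distrib, Finset.sum_const, nsmul_eq_mul,
    ← Finset.mul_sum, ← Finset.mul_sum, ← Finset.mul_sum]
  have k1 := sum_nl_le P A (fun i b ω => inc m b ((dd i (Y i ω)).cl m (t ω) (κ ω))) Y he₁ (fun s => by
    have := h1 s
    simpa only [prE_ex] using this)
  have k2 := sum_sqrt A (fun i => colp P (fun ω => fl1 (a i + m) (t ω)) (Y i)) (fun i _ => colp_nonneg P _ _) h2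
  linarith

end

end Vale.Agent.P106.U.Frm
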