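import Vale.Agent.P106.U.H377.LabE

/-!
# P106 / U / H377 : block PLabC1

The label `(h - r; b; q + r - b)` with the functional `∑ π_k X_k` divided by the length of its screen covector.
-/

set_option autoImplicit false

namespace Vale.Agent.P106.U.End7

open Finset Vale.Agent.P127 Vale.Agent.P127.Stk Vale.Agent.P127.U Vale.Agent.P127.U.CellD Vale.Agent.P127.U.Mic
open Vale.Agent.P106.W Vale.Agent.P106.U.FL
open Vale.Agent.P106.K (Ry RyOk bl Bin)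
open Vale.Agent.P122.C2 (fw fn)
open Vale.Agent.P127.Stk.Bs (fl1_close)

/-- multiple of a functional -/
noncomputable def smF (m : ℝ) (F : Fu) : Fu := ⟨fun k => m * F.n k, m * F.κ, m * F.α⟩

theorem v0_smF (m : ℝ) (F : Fu) (l : Ry) : (smF m F).v0 l = m * F.v0 l := by
  unfold smF Fu.v0
  simp only [Fin.sum_univ_two]
  ring

theorem v1_smF (m : ℝ) (F : Fu) (l : Ry) : (smF m F).v1 l = m * F.v1 l := by
  unfold smF Fu.v1
  simp only [Fin.sum_univ_two]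
  ring

theorem nr_smF (m : ℝ) (F : Fu) (o : Ry) : (smF m F).nr o = fun k => m * F.nr o k := by
  funext k
  unfold smF Fu.nr
  ring

theorem nrm_smul {m : ℝ} (hm : 0 ≤ m) (x : Fin 2 → ℝ) : nrm (fun k => m * x k) = m * nrm x := by
  unfold nrm
  rw [show (m * x 0) ^ 2 + (m * x 1) ^ 2 = m ^ 2 * (x 0 ^ 2 + x 1 ^ 2) by ring,
    Real.sqrt_mul (by positivity), Real.sqrt_sq hm]

theorem nrm_ge (x : Fin 2 → ℝ) : (|x 0| + |x 1|) / 2 ≤ nrm x := by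
  unfold nrm
  refine Real.le_sqrt_of_sq_le ?_
  have h0 := sq_abs (x 0)
  have h1 := sq_abs (x 1)
  nlinarith [sq_nonneg (|x 0| - |x 1|), sq_nonneg (|x 0|), sq_nonneg (|x 1|)]

/-- `bl` as a block of the ray itself -/
theorem bl_sub (a : ℕ) (l : Ry) (t : ℝ) : bl a l t = sub a (qa a t) l := by
  unfold bl sub Ry.pos
  rfl

variable {Ω : Type} [Fintype Ω] {ζ : Type} {E : Env Ω}

/-- the functional of the label of level `a` -/
noncomputable def fL (E : Env Ω) (π : Fin 3 → ℝ) (a b : ℕ) (t : ℝ) : Fu :=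
  smF (2 ^ b / 2 ^ E.q) (tr a (qa a t) (fG E π))

theorem v0_fL (π : Fin 3 → ℝ) (a b : ℕ) (ω : Ω) :
    (fL E π a b (E.t ω)).v0 (bl a (E.l ω) (E.t ω)) = 2 ^ b / 2 ^ E.q * (2 ^ a *
      (∑ k, π k * (E.X ω k + rd a (E.t ω) * E.Q ω k) + (π 2 * (2 ^ E.q * (fuW E.B0).v0 (cenW E.B0)) +
        rd a (E.t ω) * (π 2 * (2 ^ E.q * (fuW E.B0).v1 (cenW E.B0)))))) := by
  have e : qa a (E.t ω) = rd a (E.t ω) := rfl
  unfold fL
  rw [v0_smF, bl_sub, v0_tr, v0_fG, v1_fG, e]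
  congr 2
  simp only [mul_add, Finset.sum_add_distrib]
  rw [Finset.mul_sum]
  have : ∀ k, π k * (rd a (E.t ω) * E.Q ω k) = rd a (E.t ω) * (π k * E.Q ω k) := fun k => by ring
  simp only [this]
  ring

theorem v1_fL (π : Fin 3 → ℝ) (a b : ℕ) (ω : Ω) :
    (fL E π a b (E.t ω)).v1 (bl a (E.l ω) (E.t ω)) = 2 ^ b / 2 ^ E.q * (∑ k, π k * E.Q ω k +
      π 2 * (2 ^ E.q * (fuW E.B0).v1 (cenW E.B0))) := by
  unfold fL
  rw [v1_smF, bl_sub, v1_tr, v1_fG]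

theorem nr_fL (π : Fin 3 → ℝ) (a b : ℕ) (ω : Ω) :
    (fL E π a b (E.t ω)).nr (bl a (E.l ω) (E.t ω)) =
      fun k => 2 ^ b / 2 ^ E.q * cov E π (E.l ω) k := by
  unfold fL
  rw [nr_smF, bl_sub, nr_tr, nr_fG]

/-- differences of the rays of the blocks -/
theorem bl_close {P : Law Ω} (hS : E.Supp P) {a : ℕ} {ω ω' : Ω} (hω : 0 < P.w ω) (hω' : 0 < P.w ω')
    (h : E.Zh a ω = E.Zh a ω') :
    (∀ k, |(bl a (E.l ω) (E.t ω)).y k - (bl a (E.l ω') (E.t ω')).y k| ≤ 30) ∧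
    (∀ k, |(bl a (E.l ω) (E.t ω)).s k - (bl a (E.l ω') (E.t ω')).s k| ≤ 2) ∧
    |ad (bl a (E.l ω) (E.t ω)) (bl a (E.l ω') (E.t ω'))| ≤ 61 := by
  obtain ⟨h1, h2, h3, _⟩ := pos_close hS hω hω' h
  have hp : (0 : ℝ) < 2 ^ a := by positivity
  have hpp : (2 : ℝ) ^ a * (1 / 2) ^ a = 1 := by
    rw [← mul_pow]
    norm_num
  have e1 : qa a (E.t ω) = rd a (E.t ω) := rfl
  have e2 : qa a (E.t ω') = rd a (E.t ω) := by
    unfold qa rd
    rw [h1]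
  have hy : ∀ k, |(bl a (E.l ω) (E.t ω)).y k - (bl a (E.l ω') (E.t ω')).y k| ≤ 30 := by
    intro k
    have e : (bl a (E.l ω) (E.t ω)).y k - (bl a (E.l ω') (E.t ω')).y k =
        2 ^ a * (((E.l ω).y k + rd a (E.t ω) * (E.l ω).s k) -
          ((E.l ω').y k + rd a (E.t ω) * (E.l ω').s k)) := by
      rw [bl_sub, bl_sub, e1, e2]
      unfold sub
      ring
    rw [e, abs_mul, abs_of_pos hp]
    calc (2 : ℝ) ^ a * _ ≤ 2 ^ a * (30 * (1 / 2) ^ a) := mul_le_mul_of_nonneg_left (h2 k) hp.le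
      _ = 30 := by linear_combination 30 * hpp
  have hs : ∀ k, |(bl a (E.l ω) (E.t ω)).s k - (bl a (E.l ω') (E.t ω')).s k| ≤ 2 := by
    intro k
    have a1 := (hS.ok ω hω).1.2.1 k
    have a2 := (hS.ok ω' hω').1.2.1 k
    show |(E.l ω).s k - (E.l ω').s k| ≤ 2
    refine (abs_sub _ _).trans ?_
    linarith
  refine ⟨hy, hs, ?_⟩
  have e : ad (bl a (E.l ω) (E.t ω)) (bl a (E.l ω') (E.t ω')) =
      2 ^ a * ((E.l ω).hgt (rd a (E.t ω)) - (E.l ω').hgt (rd a (E.t ω))) -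
      ∑ k, ((bl a (E.l ω) (E.t ω)).y k - (bl a (E.l ω') (E.t ω')).y k) * (E.l ω').s k := by
    rw [bl_sub, bl_sub, e1, e2]
    unfold ad sub K.Ry.hgt
    simp only [Fin.sum_univ_two]
    ring
  rw [e]
  have b1 : |2 ^ a * ((E.l ω).hgt (rd a (E.t ω)) - (E.l ω').hgt (rd a (E.t ω)))| ≤ 1 := by
    rw [abs_mul, abs_of_pos hp]
    calc (2 : ℝ) ^ a * _ ≤ 2 ^ a * (1 / 2) ^ a := mul_le_mul_of_nonneg_left h3 hp.le
      _ = 1 := hpp
  have b2 : |∑ k, ((bl a (E.l ω) (E.t ω)).y k - (bl a (E.l ω') (E.t ω')).y k) * (E.l ω').s k| ≤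
      60 := by
    refine (Finset.abs_sum_le_sum_abs _ _).trans ?_
    rw [Fin.sum_univ_two, abs_mul, abs_mul]
    have a2 := (hS.ok ω' hω').1.2.1
    have c1 := mul_le_mul (hy 0) (a2 0) (abs_nonneg _) (by norm_num)
    have c2 := mul_le_mul (hy 1) (a2 1) (abs_nonneg _) (by norm_num)
    linarith
  refine (abs_sub _ _).trans ?_
  linarith

theorem scal {x m : ℝ} (q b : ℕ) (h : x ≤ m * 2 ^ q) : 2 ^ b / 2 ^ q * x * (1 / 2) ^ b ≤ m := by
  have hbb : (2 : ℝ) ^ b * (1 / 2) ^ b = 1 := by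
    rw [← mul_pow]
    norm_num
  have hq : (0 : ℝ) < 2 ^ q := by positivity
  have e : 2 ^ b / 2 ^ q * x * (1 / 2) ^ b = x / 2 ^ q * ((2 : ℝ) ^ b * (1 / 2) ^ b) := by ring
  rw [e, hbb, mul_one, div_le_iff₀ hq]
  exact h

/-- bounds of the frame of the label -/
theorem fr_le {P : Law Ω} (hS : E.Supp P) {π : Fin 3 → ℝ} (hπ : ∀ k, |π k| ≤ 1) (a b : ℕ) {ω : Ω}
    (hω : 0 < P.w ω) : |(fL E π a b (E.t ω)).κ| * (1 / 2) ^ b ≤ 2 ∧
      |(fL E π a b (E.t ω)).α| * (1 / 2) ^ b ≤ 1 := by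
  have hq : (0 : ℝ) < 2 ^ E.q := by positivity
  have hb : (0 : ℝ) < 2 ^ b := by positivity
  have hq1 : (1 : ℝ) ≤ 2 ^ E.q := one_le_pow₀ (by norm_num)
  have ha1 : (1 : ℝ) ≤ 2 ^ a := one_le_pow₀ (by norm_num)
  have ht0 : 0 ≤ qa a (E.t ω) := by
    unfold qa fl1
    refine div_nonneg ?_ (by positivity)
    exact_mod_cast Int.floor_nonneg.2 (mul_nonneg (by positivity) (hS.ok ω hω).2.1)
  have ht1 : qa a (E.t ω) ≤ 1 := by
    have : qa a (E.t ω) = rd a (E.t ω) := rfl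
    rw [this]
    have := rd_le a (E.t ω)
    linarith [(hS.ok ω hω).2.2]
  have hα := hS.α8
  have hκ := hS.κ8
  have c1 : |π 2 * (2 ^ E.q * E.B0.α)| ≤ 2 ^ E.q / 8 := by
    rw [abs_mul, abs_mul, abs_of_pos hq]
    calc |π 2| * (2 ^ E.q * |E.B0.α|) ≤ 1 * (2 ^ E.q * (1 / 8)) :=
          mul_le_mul (hπ 2) (mul_le_mul_of_nonneg_left hα hq.le) (by positivity) zero_le_one
      _ = 2 ^ E.q / 8 := by ring
  have c2 : |π 2 * (2 ^ E.q * E.B0.κ)| ≤ 2 ^ E.q / 8 := by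
    rw [abs_mul, abs_mul, abs_of_pos hq]
    calc |π 2| * (2 ^ E.q * |E.B0.κ|) ≤ 1 * (2 ^ E.q * (1 / 8)) :=
          mul_le_mul (hπ 2) (mul_le_mul_of_nonneg_left hκ hq.le) (by positivity) zero_le_one
      _ = 2 ^ E.q / 8 := by ring
  constructor
  · have e : (fL E π a b (E.t ω)).κ = 2 ^ b / 2 ^ E.q * ((π 1 + π 2 * (2 ^ E.q * E.B0.κ)) +
        2 * (π 2 * (2 ^ E.q * E.B0.α)) * qa a (E.t ω)) := rfl
    have c3 : |2 * (π 2 * (2 ^ E.q * E.B0.α)) * qa a (E.t ω)| ≤ 2 ^ E.q / 4 := by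
      rw [abs_mul, abs_mul, abs_of_nonneg ht0, abs_of_pos (by norm_num : (0 : ℝ) < 2)]
      have : 2 * |π 2 * (2 ^ E.q * E.B0.α)| ≤ 2 ^ E.q / 4 := by linarith
      calc 2 * |π 2 * (2 ^ E.q * E.B0.α)| * qa a (E.t ω) ≤ 2 ^ E.q / 4 * 1 :=
            mul_le_mul this ht1 ht0 (by positivity)
        _ = 2 ^ E.q / 4 := by ring
    have c4 : |(π 1 + π 2 * (2 ^ E.q * E.B0.κ)) + 2 * (π 2 * (2 ^ E.q * E.B0.α)) * qa a (E.t ω)| ≤
        2 * 2 ^ E.q := by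
      have := hπ 1
      rw [abs_le] at this c2 c3 ⊢
      constructor <;> linarith [this.1, this.2, c2.1, c2.2, c3.1, c3.2]
    rw [e, abs_mul, abs_of_pos (by positivity)]
    exact scal E.q b c4
  · have e : (fL E π a b (E.t ω)).α = 2 ^ b / 2 ^ E.q * (π 2 * (2 ^ E.q * E.B0.α) / 2 ^ a) := rfl
    have c4 : |π 2 * (2 ^ E.q * E.B0.α) / 2 ^ a| ≤ 2 ^ E.q := by
      rw [abs_div, abs_of_pos (by positivity : (0 : ℝ) < 2 ^ a), div_le_iff₀ (by positivity)]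
      nlinarith
    rw [e, abs_mul, abs_of_pos (by positivity)]
    exact scal E.q b (by linarith)

/-- the digits of the label given `Apl` -/
theorem hc_dgL {P : Law Ω} (hS : E.Supp P) (G : Ω → ζ) (π : ζ → Fin 3 → ℝ) (o : ζ → ℝ)
    (r b s : ℕ) (hr : r ≤ E.h) (hrs : r ≤ s) (hb : b ≤ E.q + r)
    (h : ∀ ω, 0 < P.w ω → |∑ k, π (G ω) k * E.Q ω k - o (G ω)| ≤ (1 / 2 : ℝ) ^ s) :
    hc P (fun ω => dg b (E.q + r - b) (fL E (π (G ω)) (E.h - r) b (E.t ω))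
        (bl (E.h - r) (E.l ω) (E.t ω))) (Apl E G π (E.h - r)) ≤
      7 * Real.log (6 * ((61 * 4 ^ b : ℕ) : ℝ) + 3) := by
  refine hc_dg P _ _ _ b (E.q + r - b) (61 * 4 ^ b) ?_
  intro ω ω' hω hω' hA
  unfold Apl at hA
  simp only [Prod.mk.injEq] at hA
  obtain ⟨hG, hZ, hv⟩ := hA
  obtain ⟨p1, p2, p3⟩ := bl_close hS hω hω' hZ
  have ht : fl1 (E.h - r) (E.t ω) = fl1 (E.h - r) (E.t ω') := congrArg Prod.fst hZ
  have hrd : rd (E.h - r) (E.t ω') = rd (E.h - r) (E.t ω) := by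
    unfold rd
    rw [ht]
  have hb1 : (1 : ℝ) ≤ 2 ^ b := one_le_pow₀ (by norm_num)
  have hbb : (2 : ℝ) ^ b * (1 / 2) ^ b = 1 := by
    rw [← mul_pow]
    norm_num
  have h4 : (4 : ℝ) ^ b = 2 ^ b * 2 ^ b := by
    rw [← mul_pow]
    norm_num
  have e1 : (((61 * 4 ^ b : ℕ) : ℝ)) * (1 / 2) ^ b = 61 * 2 ^ b := by
    push_cast
    rw [h4]
    linear_combination 61 * 2 ^ b * hbb
  have e2 : (((61 * 4 ^ b : ℕ) : ℝ)) * (1 / 2) ^ (2 * b) = 61 := by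
    have : ((1 / 2 : ℝ)) ^ (2 * b) = (1 / 2) ^ b * (1 / 2) ^ b := by rw [two_mul, pow_add]
    rw [this]
    push_cast
    rw [h4]
    linear_combination 61 * (2 ^ b * (1 / 2) ^ b + 1) * hbb
  have hN1 : (2 : ℝ) ≤ ((61 * 4 ^ b : ℕ) : ℝ) := by
    push_cast
    rw [h4]
    nlinarith
  have hR0 : (0 : ℝ) < (1 / 2) ^ (E.q + r - b) := by positivity
  -- the scaling of the values
  have hsc : (2 : ℝ) ^ b / 2 ^ E.q * (1 / 2) ^ r = (1 / 2) ^ (E.q + r - b) := by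
    have e3 : (1 / 2 : ℝ) ^ (E.q + r - b) * (1 / 2) ^ b = (1 / 2) ^ E.q * (1 / 2) ^ r := by
      rw [← pow_add, ← pow_add]
      congr 1
      omega
    have e4 : (2 : ℝ) ^ E.q * (1 / 2) ^ E.q = 1 := by
      rw [← mul_pow]
      norm_num
    have hq : (0 : ℝ) < 2 ^ E.q := by positivity
    rw [div_mul_eq_mul_div, div_eq_iff hq.ne']
    have e5 : (1 / 2 : ℝ) ^ (E.q + r - b) = (1 / 2) ^ (E.q + r - b) * (1 / 2) ^ b * 2 ^ b := by
      linear_combination -(1 / 2 : ℝ) ^ (E.q + r - b) * hbb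
    rw [e5, e3]
    linear_combination -(2 : ℝ) ^ b * (1 / 2) ^ r * e4
  refine ⟨fun k => (p1 k).trans ?_, fun k => (p2 k).trans ?_, p3.trans ?_, ?_, ?_⟩
  · rw [e1]
    linarith
  · rw [e1]
    linarith
  · rw [e2]
  · rw [v0_fL, v0_fL, ← hG, hrd]
    have hc1 := fl1_close hv
    rw [← hG, hrd] at hc1
    have e3 : 2 ^ b / 2 ^ E.q * (2 ^ (E.h - r) *
        (∑ k, π (G ω) k * (E.X ω k + rd (E.h - r) (E.t ω) * E.Q ω k) +
          (π (G ω) 2 * (2 ^ E.q * (fuW E.B0).v0 (cenW E.B0)) +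
            rd (E.h - r) (E.t ω) * (π (G ω) 2 * (2 ^ E.q * (fuW E.B0).v1 (cenW E.B0)))))) -
        2 ^ b / 2 ^ E.q * (2 ^ (E.h - r) *
        (∑ k, π (G ω) k * (E.X ω' k + rd (E.h - r) (E.t ω) * E.Q ω' k) +
          (π (G ω) 2 * (2 ^ E.q * (fuW E.B0).v0 (cenW E.B0)) +
            rd (E.h - r) (E.t ω) * (π (G ω) 2 * (2 ^ E.q * (fuW E.B0).v1 (cenW E.B0)))))) =
        2 ^ b / 2 ^ E.q * (2 ^ (E.h - r) * (∑ k, π (G ω) k * (E.X ω k + rd (E.h - r) (E.t ω) * E.Q ω k) -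
          ∑ k, π (G ω) k * (E.X ω' k + rd (E.h - r) (E.t ω) * E.Q ω' k))) := by ring
    rw [e3, abs_mul, abs_mul, abs_of_pos (by positivity : (0 : ℝ) < 2 ^ b / 2 ^ E.q),
      abs_of_pos (by positivity : (0 : ℝ) < 2 ^ (E.h - r))]
    have e4 : (2 : ℝ) ^ (E.h - r) * (1 / 2) ^ E.h = (1 / 2) ^ r := by
      have e5 : (1 / 2 : ℝ) ^ E.h = (1 / 2) ^ (E.h - r) * (1 / 2) ^ r := by
        rw [← pow_add]
        congr 1
        omega
      have e6 : (2 : ℝ) ^ (E.h - r) * (1 / 2) ^ (E.h - r) = 1 := by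
        rw [← mul_pow]
        norm_num
      rw [e5]
      linear_combination (1 / 2 : ℝ) ^ r * e6
    have c4 := mul_le_mul_of_nonneg_left (mul_le_mul_of_nonneg_left hc1
      (by positivity : (0 : ℝ) ≤ 2 ^ (E.h - r))) (by positivity : (0 : ℝ) ≤ 2 ^ b / 2 ^ E.q)
    refine c4.trans ?_
    rw [e4, hsc]
    nlinarith
  · rw [v1_fL, v1_fL, ← hG]
    have e3 : 2 ^ b / 2 ^ E.q * (∑ k, π (G ω) k * E.Q ω k +
        π (G ω) 2 * (2 ^ E.q * (fuW E.B0).v1 (cenW E.B0))) -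
        2 ^ b / 2 ^ E.q * (∑ k, π (G ω) k * E.Q ω' k +
        π (G ω) 2 * (2 ^ E.q * (fuW E.B0).v1 (cenW E.B0))) =
        2 ^ b / 2 ^ E.q * ((∑ k, π (G ω) k * E.Q ω k - o (G ω)) -
          (∑ k, π (G ω) k * E.Q ω' k - o (G ω))) := by ring
    have c1 := h ω hω
    have c2 := h ω' hω'
    rw [← hG] at c2
    have hs : (1 / 2 : ℝ) ^ s ≤ (1 / 2) ^ r := pow_le_pow_of_le_one (by norm_num) (by norm_num) hrs
    rw [e3, abs_mul, abs_of_pos (by positivity : (0 : ℝ) < 2 ^ b / 2 ^ E.q)]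
    have c3 : |(∑ k, π (G ω) k * E.Q ω k - o (G ω)) - (∑ k, π (G ω) k * E.Q ω' k - o (G ω))| ≤
        2 * (1 / 2) ^ r := (abs_sub _ _).trans (by linarith)
    have c4 := mul_le_mul_of_nonneg_left c3 (by positivity : (0 : ℝ) ≤ 2 ^ b / 2 ^ E.q)
    have c5 : (2 : ℝ) ^ b / 2 ^ E.q * (2 * (1 / 2) ^ r) = 2 * (1 / 2) ^ (E.q + r - b) := by
      rw [← hsc]; ring
    refine c4.trans ?_
    rw [c5]
    nlinarith

theorem log_dg (b : ℕ) : 7 * Real.log (6 * ((61 * 4 ^ b : ℕ) : ℝ) + 3) ≤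
    100 * ((b : ℝ) + 1) * Real.log 2 := by
  have h4 : (1 : ℝ) ≤ 4 ^ b := one_le_pow₀ (by norm_num)
  have h1 : 6 * ((61 * 4 ^ b : ℕ) : ℝ) + 3 ≤ 2 ^ 9 * 4 ^ b := by
    push_cast
    nlinarith
  have h2 : Real.log (6 * ((61 * 4 ^ b : ℕ) : ℝ) + 3) ≤ Real.log (2 ^ 9 * 4 ^ b) :=
    Real.log_le_log (by positivity) h1
  have h3 : Real.log ((2 : ℝ) ^ 9 * 4 ^ b) = (9 + 2 * b) * Real.log 2 := by
    rw [Real.log_mul (by positivity) (by positivity), Real.log_pow, Real.log_pow,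
      show (4 : ℝ) = 2 ^ 2 by norm_num, Real.log_pow]
    push_cast
    ring
  have hl : 0 < Real.log 2 := Real.log_pos (by norm_num)
  have hb : (0 : ℝ) ≤ b := Nat.cast_nonneg b
  rw [h3] at h2
  nlinarith [mul_nonneg hb hl.le]

/-- **[C1-label]** -/
theorem pLabC1 : PLabC1 := by
  refine ⟨100, ?_⟩
  intro p hp Ω _ ζ E P μ r b s G π o hS hL hbr hr hrs h
  have hbr' : 2 * b + 100 ≤ r := by exact_mod_cast hbr
  set a := E.h - r with ha
  set R := E.q + r - b with hR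
  have hpc : 100 ≤ p.c := hp.c0
  have hq : (0 : ℝ) < 2 ^ E.q := by positivity
  have hb0 : (0 : ℝ) < 2 ^ b := by positivity
  have hn : ∀ ω, 0 < P.w ω →
      1 / 2 ≤ nrm ((fL E (π (G ω)) a b (E.t ω)).nr (bl a (E.l ω) (E.t ω))) := by
    intro ω hω
    rw [nr_fL, nrm_smul (by positivity)]
    have h1 := nrm_ge (cov E (π (G ω)) (E.l ω))
    have h2 := (h ω hω).2.2.2
    have h3 : 2 ^ b / 2 ^ E.q * ((2 ^ E.q / 2 ^ b) / 2) ≤
        2 ^ b / 2 ^ E.q * nrm (cov E (π (G ω)) (E.l ω)) :=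
      mul_le_mul_of_nonneg_left (by linarith) (by positivity)
    have h4 : (2 : ℝ) ^ b / 2 ^ E.q * ((2 ^ E.q / 2 ^ b) / 2) = 1 / 2 := by
      field_simp
    linarith
  obtain ⟨A, hA⟩ := labOf P E.l E.t E.L a b R p.c (fun ω => fL E (π (G ω)) a b (E.t ω))
    (by omega) (by have := hS.hL; omega) (by linarith)
    (fun ω hω => by nlinarith [hn ω hω])
    (fun ω hω => by nlinarith [hn ω hω, (fr_le hS (h ω hω).1 a b hω).1])
    (fun ω hω => by nlinarith [hn ω hω, (fr_le hS (h ω hω).1 a b hω).2])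
  set D : Ω → ((Fin 2 → ℤ) × (Fin 2 → ℤ) × ℤ) × ℤ × ℤ :=
    fun ω => dg b R (fL E (π (G ω)) a b (E.t ω)) (bl a (E.l ω) (E.t ω)) with hD
  have hlab := hL a b R (by omega) (by omega) (by have := hS.hL; omega) Ω inferInstance P (fun ω => ω)
    (fun ω => A (fL E (π (G ω)) a b (E.t ω), D ω)) ?_ ?_
  · have h1 : hc P E.l (Apl E G π a) ≤ hc P E.l (fun ω => (D ω, Apl E G π a ω)) +
        hc P D (Apl E G π a) := hc_le_add' P E.l D (Apl E G π a)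
    have h2 : hc P E.l (fun ω => (D ω, Apl E G π a ω)) ≤
        hc P E.l (fun ω => (A (fL E (π (G ω)) a b (E.t ω), D ω), fl1 a (E.t ω))) := by
      refine hc_mono_right P E.l ?_
      intro ω ω' _ _ e
      simp only [Prod.mk.injEq, Apl] at e
      obtain ⟨e1, e2, e3, _⟩ := e
      have e4 : fl1 a (E.t ω) = fl1 a (E.t ω') := congrArg Prod.fst e3
      have e5 : fL E (π (G ω)) a b (E.t ω) = fL E (π (G ω')) a b (E.t ω') := by
        unfold fL qa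
        rw [e2, e4]
      simp only [Prod.mk.injEq]
      exact ⟨by rw [e5, e1], e4⟩
    have h3 : hc P D (Apl E G π a) ≤ 100 * ((b : ℝ) + 1) * Real.log 2 :=
      (hc_dgL hS G π o r b s hr hrs (by omega) fun ω hω => (h ω hω).2.2.1).trans (log_dg b)
    have hl : 0 < Real.log 2 := Real.log_pos (by norm_num)
    unfold Env.vh at hlab
    have e1 : ((a : ℕ) : ℝ) = E.h - r := by rw [ha]; push_cast [hr]; ring
    have e2 : ((R : ℕ) : ℝ) = E.q + r - b := by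
      rw [hR]
      have : b ≤ E.q + r := by omega
      push_cast [this]
      ring
    have e3 : |((R : ℕ) : ℝ) - E.q| = r - b := by
      rw [e2, abs_of_nonneg]
      · ring
      · have : (b : ℝ) ≤ r := by exact_mod_cast (by omega : b ≤ r)
        linarith
    rw [e3, e1, e2] at hlab
    have hb' : (0 : ℝ) ≤ b := Nat.cast_nonneg b
    have hk := hp.k0
    have hlam := hp.lam0
    have hkey : ((2 - (p.β - p.lam - p.k)) * r + 100 * (b + 1)) * Real.log 2 =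
        (2 - (p.β - p.lam - p.k)) * r * Real.log 2 + 100 * ((b : ℝ) + 1) * Real.log 2 := by ring
    have hmul : 0 ≤ (2 + 2 * p.lam) * b * Real.log 2 := by positivity
    rw [hkey]
    nlinarith
  · intro ω
    classical
    unfold Law.pr
    convert Finset.sum_singleton P.w ω
    ext x
    simp
  · intro ω hω
    obtain ⟨h1, h2, h3⟩ := hA ω hω
    refine ⟨h2, h3, h1.α2, h1.κ2, h1.inn⟩

end Vale.Agent.P106.U.End7
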