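import Vale.Agent.P106.U.H683.NonP
import Vale.Agent.P127.U.H736.Nonat

/-!
# P106 / U / H377 : mass of the best set (helper377)

`nl P E Y = sup_s P(E (s Y))` : `E l` an event for every index `l` (line, value), `s` = a choice of the index as a
function of `Y`.  It measures the concentration given `Y` (no line has mass given `Y`).

* `le_nl`, `nl_le`, `sum_nl_le` : the supremum; a bound of the sum for all families of choices bounds the sum.
* `nl_cond` : a condition with at most `N` values given `Y` costs the factor `N`.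
* `nl_map` : change of the sets, `N` sets for one.
* `nl_tr` : a further letter `C` in the condition costs `4 √(I(C ; V | Y))`.
* `colp_le_nl`, `nl_le_colp` : collision probabilities.
* `sum_sqrt` : Cauchy-Schwarz.
* `avc_line` : three copies: the third one in a set which depends on the first two.
-/

set_option autoImplicit false

namespace Vale.Agent.P106.U.Frm

open Finset Vale.Agent.P127 Vale.Agent.P127.Stk Vale.Agent.P127.U.Pin Vale.Agent.P127.U.Mic
open Vale.Agent.P106.U.H683 Vale.Agent.P106.TV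

section

variable {Ω : Type} [Fintype Ω] {ι ι' S T T' U : Type*} (P : Law Ω)

theorem prE_ex (E : Ω → Prop) : prE P E = P.ex (fun ω => Law.ind (E ω)) := by
  classical
  unfold prE Law.ex
  rw [Finset.sum_filter]
  refine Finset.sum_congr rfl fun ω _ => ?_
  beta_reduce
  by_cases h : E ω
  · rw [if_pos h, Law.ind_of h, mul_one]
  · rw [if_neg h, Law.ind_not h, mul_zero]

theorem ex_ind_le_one (E : Ω → Prop) : P.ex (fun ω => Law.ind (E ω)) ≤ 1 := by
  have h := P.ex_mono (f := fun ω => Law.ind (E ω)) (g := fun _ => 1) fun ω _ => ind_le_one _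
  rwa [P.ex_const] at h

theorem ex_ind_nonneg (E : Ω → Prop) : 0 ≤ P.ex (fun ω => Law.ind (E ω)) :=
  P.ex_nonneg fun ω _ => ind_nonneg _

/-- mass of the best set -/
noncomputable def nl (E : ι → Ω → Prop) (Y : Ω → T) : ℝ :=
  sSup (Set.range fun s : T → ι => P.ex fun ω => Law.ind (E (s (Y ω)) ω))

theorem nl_bdd (E : ι → Ω → Prop) (Y : Ω → T) :
    BddAbove (Set.range fun s : T → ι => P.ex fun ω => Law.ind (E (s (Y ω)) ω)) := by
  refine ⟨1, ?_⟩
  rintro _ ⟨s, rfl⟩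
  exact ex_ind_le_one P _

theorem le_nl (E : ι → Ω → Prop) (Y : Ω → T) (s : T → ι) :
    P.ex (fun ω => Law.ind (E (s (Y ω)) ω)) ≤ nl P E Y :=
  le_csSup (nl_bdd P E Y) ⟨s, rfl⟩

theorem nl_nonneg (E : ι → Ω → Prop) (Y : Ω → T) : 0 ≤ nl P E Y := by
  refine Real.sSup_nonneg ?_
  rintro _ ⟨s, rfl⟩
  exact ex_ind_nonneg P _

theorem nl_le (E : ι → Ω → Prop) (Y : Ω → T) {c : ℝ} (hc : 0 ≤ c)
    (h : ∀ s : T → ι, P.ex (fun ω => Law.ind (E (s (Y ω)) ω)) ≤ c) : nl P E Y ≤ c := by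
  refine Real.sSup_le ?_ hc
  rintro _ ⟨s, rfl⟩
  exact h s

theorem nl_le_one (E : ι → Ω → Prop) (Y : Ω → T) : nl P E Y ≤ 1 :=
  nl_le P E Y zero_le_one fun _ => ex_ind_le_one P _

theorem nl_fin (E : ι → Ω → Prop) (Y : Ω → T) :
    (Set.range fun s : T → ι => P.ex fun ω => Law.ind (E (s (Y ω)) ω)).Finite := by
  classical
  refine Set.Finite.subset (Set.finite_range fun F : Set Ω => P.ex fun ω => Law.ind (ω ∈ F)) ?_
  rintro _ ⟨s, rfl⟩
  exact ⟨{ω | E (s (Y ω)) ω}, rfl⟩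

/-- the supremum is attained -/
theorem exists_nl (E : ι → Ω → Prop) (Y : Ω → T) :
    (∃ s : T → ι, P.ex (fun ω => Law.ind (E (s (Y ω)) ω)) = nl P E Y) ∨ nl P E Y = 0 := by
  rcases isEmpty_or_nonempty (T → ι) with h | h
  · right
    unfold nl
    rw [Set.range_eq_empty, Real.sSup_empty]
  · left
    exact (Set.range_nonempty _).csSup_mem (nl_fin P E Y)

/-- **sums** -/
theorem sum_nl_le (A : Finset ℕ) (E : ℕ → ι → Ω → Prop) (Y : ℕ → Ω → T) {B : ℝ} (hB : 0 ≤ B)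
    (h : ∀ s : ℕ → T → ι, ∑ i ∈ A, P.ex (fun ω => Law.ind (E i (s i (Y i ω)) ω)) ≤ B) :
    ∑ i ∈ A, nl P (E i) (Y i) ≤ B := by
  classical
  rcases isEmpty_or_nonempty (T → ι) with h0 | h0
  · have h1 : ∀ i, nl P (E i) (Y i) = 0 := fun i => by
      unfold nl
      rw [Set.range_eq_empty, Real.sSup_empty]
    simpa [h1] using hB
  · have h1 : ∀ i, ∃ s : T → ι, P.ex (fun ω => Law.ind (E i (s (Y i ω)) ω)) = nl P (E i) (Y i) :=
      fun i => (Set.range_nonempty _).csSup_mem (nl_fin P (E i) (Y i))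
    choose s hs using h1
    have := h s
    simpa only [hs] using this

/-- a condition with at most `N` values given `Y` -/
theorem nl_cond (E : ι → Ω → Prop) (Y : Ω → T) (D : Ω → T') (N : ℕ) (f : ℕ → T → T')
    (h : ∀ ω, 0 < P.w ω → ∃ j < N, D ω = f j (Y ω)) : nl P E D ≤ N * nl P E Y := by
  classical
  refine nl_le P E D (mul_nonneg (Nat.cast_nonneg _) (nl_nonneg P E Y)) fun s => ?_
  have h1 : P.ex (fun ω => Law.ind (E (s (D ω)) ω)) ≤
      P.ex (fun ω => ∑ j ∈ range N, Law.ind (E (s (f j (Y ω))) ω)) := by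
    refine P.ex_mono fun ω hω => ?_
    obtain ⟨j, hj, e⟩ := h ω hω
    rw [e]
    exact Finset.single_le_sum (f := fun j => Law.ind (E (s (f j (Y ω))) ω))
      (fun j _ => ind_nonneg _) (Finset.mem_range.2 hj)
  refine h1.trans ?_
  have h2 : P.ex (fun ω => ∑ j ∈ range N, Law.ind (E (s (f j (Y ω))) ω)) =
      ∑ j ∈ range N, P.ex (fun ω => Law.ind (E (s (f j (Y ω))) ω)) := by
    unfold Law.ex
    rw [Finset.sum_comm]
    exact Finset.sum_congr rfl fun ω _ => by rw [Finset.mul_sum]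
  rw [h2]
  calc ∑ j ∈ range N, P.ex (fun ω => Law.ind (E (s (f j (Y ω))) ω)) ≤ ∑ _j ∈ range N, nl P E Y :=
        Finset.sum_le_sum fun j _ => le_nl P E Y (fun y => s (f j y))
    _ = N * nl P E Y := by rw [Finset.sum_const, card_range, nsmul_eq_mul]

/-- a coarser condition -/
theorem nl_mono (E : ι → Ω → Prop) {Y : Ω → T} {D : Ω → T'} (h : Fn P D Y) :
    nl P E D ≤ nl P E Y := by
  classical
  obtain ⟨ω₀, h₀⟩ : ∃ ω, 0 < P.w ω := by
    by_contra hcon
    push Not at hcon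
    have : ∑ ω, P.w ω ≤ 0 := Finset.sum_nonpos fun ω _ => hcon ω
    rw [P.sum_one] at this
    linarith
  have := nl_cond P E Y D 1 (fun _ y => if hy : ∃ ω, 0 < P.w ω ∧ Y ω = y then D hy.choose else D ω₀)
    fun ω hω => ⟨0, Nat.zero_lt_one, by
      have hy : ∃ ω', 0 < P.w ω' ∧ Y ω' = Y ω := ⟨ω, hω, rfl⟩
      rw [dif_pos hy]
      exact (h _ _ hy.choose_spec.1 hω hy.choose_spec.2).symm⟩
  simpa using this

/-- change of the sets -/
theorem nl_map (E : ι → Ω → Prop) (E' : ι' → Ω → Prop) (Y : Ω → T) (N : ℕ) (g : ℕ → T → ι' → ι)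
    (h : ∀ ω, 0 < P.w ω → ∀ l, E' l ω → ∃ j < N, E (g j (Y ω) l) ω) :
    nl P E' Y ≤ N * nl P E Y := by
  classical
  refine nl_le P E' Y (mul_nonneg (Nat.cast_nonneg _) (nl_nonneg P E Y)) fun s => ?_
  have h1 : P.ex (fun ω => Law.ind (E' (s (Y ω)) ω)) ≤
      P.ex (fun ω => ∑ j ∈ range N, Law.ind (E (g j (Y ω) (s (Y ω))) ω)) := by
    refine P.ex_mono fun ω hω => ?_
    by_cases hE : E' (s (Y ω)) ω
    · obtain ⟨j, hj, e⟩ := h ω hω _ hE
      rw [Law.ind_of hE, ← Law.ind_of e]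
      exact Finset.single_le_sum (f := fun j => Law.ind (E (g j (Y ω) (s (Y ω))) ω))
        (fun j _ => ind_nonneg _) (Finset.mem_range.2 hj)
    · rw [Law.ind_not hE]
      exact Finset.sum_nonneg fun j _ => ind_nonneg _
  refine h1.trans ?_
  have h2 : P.ex (fun ω => ∑ j ∈ range N, Law.ind (E (g j (Y ω) (s (Y ω))) ω)) =
      ∑ j ∈ range N, P.ex (fun ω => Law.ind (E (g j (Y ω) (s (Y ω))) ω)) := by
    unfold Law.ex
    rw [Finset.sum_comm]
    exact Finset.sum_congr rfl fun ω _ => by rw [Finset.mul_sum]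
  rw [h2]
  calc ∑ j ∈ range N, P.ex (fun ω => Law.ind (E (g j (Y ω) (s (Y ω))) ω)) ≤
        ∑ _j ∈ range N, nl P E Y :=
        Finset.sum_le_sum fun j _ => le_nl P E Y (fun y => g j y (s y))
    _ = N * nl P E Y := by rw [Finset.sum_const, card_range, nsmul_eq_mul]

/-- one of two kinds of sets -/
theorem nl_or {ι₁ ι₂ : Type*} (E₁ : ι₁ → Ω → Prop) (E₂ : ι₂ → Ω → Prop) (E' : ι' → Ω → Prop)
    (Y : Ω → T) (g₁ : T → ι' → ι₁) (g₂ : T → ι' → ι₂)
    (h : ∀ ω, 0 < P.w ω → ∀ l, E' l ω → E₁ (g₁ (Y ω) l) ω ∨ E₂ (g₂ (Y ω) l) ω) :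
    nl P E' Y ≤ nl P E₁ Y + nl P E₂ Y := by
  refine nl_le P E' Y (add_nonneg (nl_nonneg P _ Y) (nl_nonneg P _ Y)) fun s => ?_
  have h1 : P.ex (fun ω => Law.ind (E' (s (Y ω)) ω)) ≤
      P.ex (fun ω => Law.ind (E₁ (g₁ (Y ω) (s (Y ω))) ω) + Law.ind (E₂ (g₂ (Y ω) (s (Y ω))) ω)) := by
    refine P.ex_mono fun ω hω => ?_
    by_cases hE : E' (s (Y ω)) ω
    · rw [Law.ind_of hE]
      rcases h ω hω _ hE with e | e
      · rw [Law.ind_of e]
        linarith [ind_nonneg (E₂ (g₂ (Y ω) (s (Y ω))) ω)]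
      · rw [Law.ind_of e]
        linarith [ind_nonneg (E₁ (g₁ (Y ω) (s (Y ω))) ω)]
    · rw [Law.ind_not hE]
      exact add_nonneg (ind_nonneg _) (ind_nonneg _)
  rw [P.ex_add] at h1
  have h2 := le_nl P E₁ Y (fun y => g₁ y (s y))
  have h3 := le_nl P E₂ Y (fun y => g₂ y (s y))
  linarith

/-- **a further letter in the condition** -/
theorem nl_tr (mem : ι → S → Prop) (V : Ω → S) (Y : Ω → T) (C : Ω → U) :
    nl P (fun l ω => mem l (V ω)) (fun ω => (Y ω, C ω)) ≤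
      nl P (fun l ω => mem l (V ω)) Y + 4 * Real.sqrt (mi P C V Y) := by
  classical
  refine nl_le P _ _ (add_nonneg (nl_nonneg P _ Y) (by positivity)) fun s => ?_
  obtain ⟨ω₀, h₀⟩ : ∃ ω, 0 < P.w ω := by
    by_contra hcon
    push Not at hcon
    have : ∑ ω, P.w ω ≤ 0 := Finset.sum_nonpos fun ω _ => hcon ω
    rw [P.sum_one] at this
    linarith
  have hne : (img C).Nonempty := ⟨C ω₀, mem_img.2 ⟨ω₀, rfl⟩⟩
  -- the best value of `C`
  have hmax : ∀ y : T, ∃ c ∈ img C, ∀ c' ∈ img C,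
      (P.cond Y y).ex (fun ω' => Law.ind (mem (s (y, c')) (V ω'))) ≤
        (P.cond Y y).ex (fun ω' => Law.ind (mem (s (y, c)) (V ω'))) := fun y =>
    Finset.exists_max_image (img C) _ hne
  choose c hc1 hc2 using hmax
  have h1 : P.ex (fun ω => Law.ind (mem (s (Y ω, C ω)) (V ω))) =
      P.ex (fun ω => (P.cond (fun ω => (Y ω, C ω)) (Y ω, C ω)).ex
        fun ω' => Law.ind (mem (s (Y ω, C ω)) (V ω'))) := by
    rw [← ex_cond P (fun ω => (Y ω, C ω)) (fun ω => Law.ind (mem (s (Y ω, C ω)) (V ω)))]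
    refine P.ex_congr fun ω hω => Law.ex_congr _ fun ω' h' => ?_
    obtain ⟨e, _⟩ := cond_supp P (fun ω => (Y ω, C ω)) (P.pr_pos _ hω) h'
    obtain ⟨e1, e2⟩ := Prod.mk.inj e
    rw [e1, e2]
  have h2 : ∀ ω, 0 < P.w ω → (P.cond (fun ω => (Y ω, C ω)) (Y ω, C ω)).ex
        (fun ω' => Law.ind (mem (s (Y ω, C ω)) (V ω'))) ≤
      (P.cond Y (Y ω)).ex (fun ω' => Law.ind (mem (s (Y ω, c (Y ω))) (V ω'))) +
        dl (P.cond (fun ω => (Y ω, C ω)) (Y ω, C ω)) V (P.cond Y (Y ω)) V := by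
    intro ω _
    have g1 := ex_sub_le_dl (P.cond (fun ω => (Y ω, C ω)) (Y ω, C ω)) V (P.cond Y (Y ω)) V
      (fun v => Law.ind (mem (s (Y ω, C ω)) v)) 1 (fun v => by
        rw [abs_of_nonneg (ind_nonneg _)]
        exact ind_le_one _)
    have g2 := hc2 (Y ω) (C ω) (mem_img.2 ⟨ω, rfl⟩)
    rw [one_mul] at g1
    have g3 := (abs_le.1 g1).2
    linarith
  have h3 := P.ex_mono h2
  rw [P.ex_add] at h3
  have h4 : P.ex (fun ω => (P.cond Y (Y ω)).ex (fun ω' => Law.ind (mem (s (Y ω, c (Y ω))) (V ω')))) =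
      P.ex (fun ω => Law.ind (mem (s (Y ω, c (Y ω))) (V ω))) := by
    rw [← ex_cond P Y (fun ω => Law.ind (mem (s (Y ω, c (Y ω))) (V ω)))]
    refine P.ex_congr fun ω hω => Law.ex_congr _ fun ω' h' => ?_
    obtain ⟨e, _⟩ := cond_supp P Y (P.pr_pos _ hω) h'
    rw [e]
  have h5 := le_nl P (fun l ω => mem l (V ω)) Y (fun y => s (y, c y))
  have h6 := pin_dl P C V Y
  rw [h1]
  rw [h4] at h3
  linarith

/-! ### collision probabilities -/

theorem colp_le_nl (X : Ω → S) (Y : Ω → T) : colp P X Y ≤ nl P (fun x ω => X ω = x) Y := by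
  classical
  obtain ⟨ω₀, h₀⟩ : ∃ ω, 0 < P.w ω := by
    by_contra hcon
    push Not at hcon
    have : ∑ ω, P.w ω ≤ 0 := Finset.sum_nonpos fun ω _ => hcon ω
    rw [P.sum_one] at this
    linarith
  have hne : (img X).Nonempty := ⟨X ω₀, mem_img.2 ⟨ω₀, rfl⟩⟩
  have hmax : ∀ y : T, ∃ x ∈ img X, ∀ x' ∈ img X, cq P X Y x' y ≤ cq P X Y x y := fun y =>
    Finset.exists_max_image (img X) _ hne
  choose x hx1 hx2 using hmax
  have h1 : colp P X Y ≤ P.ex (fun ω => cq P X Y (x (Y ω)) (Y ω)) :=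
    P.ex_mono fun ω _ => hx2 (Y ω) (X ω) (mem_img.2 ⟨ω, rfl⟩)
  have h2 : P.ex (fun ω => cq P X Y (x (Y ω)) (Y ω)) = P.ex (fun ω => Law.ind (X ω = x (Y ω))) := by
    rw [← ex_cond P Y (fun ω => Law.ind (X ω = x (Y ω)))]
    refine P.ex_congr fun ω hω => ?_
    rw [cq_eq_cond P X Y _ (P.pr_pos Y hω), Law.pr_eq_ex]
    refine Law.ex_congr _ fun ω' h' => ?_
    obtain ⟨e, _⟩ := cond_supp P Y (P.pr_pos _ hω) h'
    rw [e]
  rw [h2] at h1
  exact h1.trans (le_nl P (fun x ω => X ω = x) Y x)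

theorem nl_le_colp (X : Ω → S) (Y : Ω → T) :
    nl P (fun x ω => X ω = x) Y ≤ Real.sqrt (colp P X Y) := by
  classical
  refine nl_le P _ Y (Real.sqrt_nonneg _) fun s => ?_
  have h2 : P.ex (fun ω => Law.ind (X ω = s (Y ω))) = P.ex (fun ω => cq P X Y (s (Y ω)) (Y ω)) := by
    rw [← ex_cond P Y (fun ω => Law.ind (X ω = s (Y ω)))]
    refine P.ex_congr fun ω hω => ?_
    rw [cq_eq_cond P X Y _ (P.pr_pos Y hω), Law.pr_eq_ex]
    refine Law.ex_congr _ fun ω' h' => ?_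
    obtain ⟨e, _⟩ := cond_supp P Y (P.pr_pos _ hω) h'
    rw [e]
  -- second moment
  have h3 : P.ex (fun ω => cq P X Y (s (Y ω)) (Y ω) * cq P X Y (s (Y ω)) (Y ω)) ≤ colp P X Y := by
    rw [colp_eq_sum]
    have e1 : ∑ x ∈ img X, P.ex (fun ω => cq P X Y x (Y ω) * cq P X Y x (Y ω)) =
        P.ex (fun ω => ∑ x ∈ img X, cq P X Y x (Y ω) * cq P X Y x (Y ω)) := by
      unfold Law.ex
      rw [Finset.sum_comm]
      exact Finset.sum_congr rfl fun ω _ => by rw [Finset.mul_sum]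
    rw [e1]
    refine P.ex_mono fun ω _ => ?_
    by_cases hs : s (Y ω) ∈ img X
    · exact Finset.single_le_sum (f := fun x => cq P X Y x (Y ω) * cq P X Y x (Y ω))
        (fun x _ => mul_self_nonneg _) hs
    · rw [cq_zero P X Y _ hs, zero_mul]
      exact Finset.sum_nonneg fun x _ => mul_self_nonneg _
  rw [h2]
  refine Real.le_sqrt_of_sq_le (le_trans ?_ h3)
  -- Jensen
  set a : Ω → ℝ := fun ω => cq P X Y (s (Y ω)) (Y ω) with ha
  have h4 : 0 ≤ P.ex (fun ω => (a ω - P.ex a) * (a ω - P.ex a)) :=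
    P.ex_nonneg fun ω _ => mul_self_nonneg _
  have h5 : P.ex (fun ω => (a ω - P.ex a) * (a ω - P.ex a)) =
      P.ex (fun ω => a ω * a ω) - P.ex a ^ 2 := by
    have e1 : (fun ω => (a ω - P.ex a) * (a ω - P.ex a)) =
        fun ω => (a ω * a ω - (2 * P.ex a) * a ω) + P.ex a ^ 2 := by
      funext ω; ring
    rw [e1, P.ex_add, P.ex_sub, P.ex_const_mul, P.ex_const]
    ring
  have h6 : P.ex a ^ 2 ≤ P.ex (fun ω => a ω * a ω) := by linarith
  exact h6

/-- Cauchy-Schwarz -/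
theorem sum_sqrt (A : Finset ℕ) (x : ℕ → ℝ) (hx : ∀ i ∈ A, 0 ≤ x i) {B : ℝ} (h : ∑ i ∈ A, x i ≤ B) :
    ∑ i ∈ A, Real.sqrt (x i) ≤ Real.sqrt (A.card * B) := by
  refine Real.le_sqrt_of_sq_le ?_
  have h1 := sq_sum_le_card_mul_sum_sq (s := A) (f := fun i => Real.sqrt (x i))
  have h2 : ∑ i ∈ A, Real.sqrt (x i) ^ 2 = ∑ i ∈ A, x i :=
    Finset.sum_congr rfl fun i hi => Real.sq_sqrt (hx i hi)
  rw [h2] at h1
  exact h1.trans (mul_le_mul_of_nonneg_left h (Nat.cast_nonneg _))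

/-! ### copies -/

variable {κ₂ κ₃ : Type} [Fintype κ₂] [DecidableEq κ₂] [Fintype κ₃] [DecidableEq κ₃]

/-- three copies given `D` : the third one in a set which depends on `D` and the first two -/
theorem avc_line (E : ι → Ω → Prop) (D : Ω → T) (jn : T → Ω → Ω → ι) {i j : κ₂} (hij : i ≠ j) :
    avc P D κ₂ κ₃ (fun ω z _ => Law.ind (E (jn (D ω) ω (z i)) (z j))) ≤ nl P E D := by
  classical
  unfold avc
  simp only [Law.ex_const]
  -- the best pair
  obtain ⟨ω₀, h₀⟩ : ∃ ω, 0 < P.w ω := by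
    by_contra hcon
    push Not at hcon
    have : ∑ ω, P.w ω ≤ 0 := Finset.sum_nonpos fun ω _ => hcon ω
    rw [P.sum_one] at this
    linarith
  have hmax : ∀ d : T, ∃ p ∈ (univ : Finset (Ω × Ω)), ∀ q ∈ (univ : Finset (Ω × Ω)),
      (P.cond D d).ex (fun ω' => Law.ind (E (jn d q.1 q.2) ω')) ≤
        (P.cond D d).ex (fun ω' => Law.ind (E (jn d p.1 p.2) ω')) := fun d =>
    Finset.exists_max_image univ _ ⟨(ω₀, ω₀), mem_univ _⟩
  choose p hp1 hp2 using hmax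
  have h1 : P.ex (fun ω => (cop (P.cond D (D ω)) κ₂).ex fun z =>
      Law.ind (E (jn (D ω) ω (z i)) (z j))) ≤
      P.ex (fun ω => (P.cond D (D ω)).ex (fun ω' => Law.ind (E (jn (D ω) (p (D ω)).1 (p (D ω)).2) ω'))) := by
    refine P.ex_mono fun ω hω => ?_
    rw [cop_ex2 (P.cond D (D ω)) hij (fun a b => Law.ind (E (jn (D ω) ω a) b))]
    have g : ∀ a, (P.cond D (D ω)).ex (fun b => Law.ind (E (jn (D ω) ω a) b)) ≤
        (P.cond D (D ω)).ex (fun ω' => Law.ind (E (jn (D ω) (p (D ω)).1 (p (D ω)).2) ω')) :=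
      fun a => hp2 (D ω) (ω, a) (mem_univ _)
    calc (P.cond D (D ω)).ex (fun a => (P.cond D (D ω)).ex (fun b => Law.ind (E (jn (D ω) ω a) b)))
        ≤ (P.cond D (D ω)).ex (fun _ => (P.cond D (D ω)).ex
          (fun ω' => Law.ind (E (jn (D ω) (p (D ω)).1 (p (D ω)).2) ω'))) :=
          Law.ex_mono _ fun a _ => g a
      _ = _ := Law.ex_const _ _
  refine h1.trans (le_trans (le_of_eq ?_) (le_nl P E D fun d => jn d (p d).1 (p d).2))
  rw [← ex_cond P D (fun ω => Law.ind (E (jn (D ω) (p (D ω)).1 (p (D ω)).2) ω))]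
  refine P.ex_congr fun ω hω => Law.ex_congr _ fun ω' h' => ?_
  obtain ⟨e, _⟩ := cond_supp P D (P.pr_pos _ hω) h'
  rw [e]

end

end Vale.Agent.P106.U.Frm
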