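import Vale.Agent.P106.U.H20.Defs
import Vale.Agent.P127.Stk.BaseA

/-!
# P106 / U / H377 : labels from conformal functionals

* `Fu = (n, κ, α)` : the functional `v0 l = n·y + κ (z + y·s) - α |y|²` (value at the time `0`),
  `v1 l = n·s + κ |s|²/2 + 2 α z` (increment in the time `1`); affine along the rays.
* `Fu.nr o` : its direction at the ray `o`;  `v0_sub`, `v1_sub` : recentering at `o`.
* `bxF F o b R` : the box of cap `2^-b` and thickness `2^-R` of the functional `F` around the ray `o`;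
  `bin_bxF` : which rays it contains.
* `dg b R F l` : the digits of `l` which determine the box up to `O(1)`; `labOf` : a label of level `a` which
  is a function of `(F, dg b R F (bl a l t))`.
* `tr` : the functional in the coordinates of a time block.
-/

set_option autoImplicit false

namespace Vale.Agent.P106.U.FL

open Finset Vale.Agent.P127 Vale.Agent.P127.Stk Vale.Agent.P127.U Vale.Agent.P106.W Vale.Agent.P106.K
open Vale.Agent.P106.U
open Vale.Agent.P122.C2 (fn)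
open Vale.Agent.P127.Stk.Bs (fl_close fl1_close hc_fl_diam)

/-- conformal functional -/
@[ext] structure Fu where
  n : Fin 2 → ℝ
  κ : ℝ
  α : ℝ

/-- value at the time `0` -/
noncomputable def Fu.v0 (F : Fu) (l : Ry) : ℝ :=
  ∑ k, F.n k * l.y k + F.κ * (l.z + ∑ k, l.y k * l.s k) - F.α * ∑ k, l.y k ^ 2

/-- increment in the time `1` -/
noncomputable def Fu.v1 (F : Fu) (l : Ry) : ℝ :=
  ∑ k, F.n k * l.s k + F.κ * (∑ k, l.s k ^ 2) / 2 + 2 * F.α * l.z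

/-- the direction of the functional at the ray `o` -/
noncomputable def Fu.nr (F : Fu) (o : Ry) : Fin 2 → ℝ := fun k => F.n k + F.κ * o.s k - 2 * F.α * o.y k

theorem v0_sub (F : Fu) (l o : Ry) : F.v0 l - F.v0 o = ∑ k, F.nr o k * (l.y k - o.y k) +
    F.κ * (l.z + ∑ k, l.y k * (l.s k - o.s k) - o.z) - F.α * ∑ k, (l.y k - o.y k) ^ 2 := by
  unfold Fu.v0 Fu.nr
  simp only [Fin.sum_univ_two]
  ring

theorem v1_sub (F : Fu) (l o : Ry) : F.v1 l - F.v1 o = ∑ k, F.nr o k * (l.s k - o.s k) +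
    F.κ * (∑ k, (l.s k - o.s k) ^ 2) / 2 + 2 * F.α * (l.z + ∑ k, o.y k * (l.s k - o.s k) - o.z) := by
  unfold Fu.v1 Fu.nr
  simp only [Fin.sum_univ_two]
  ring

/-- length of a vector -/
noncomputable def nrm (m : Fin 2 → ℝ) : ℝ := Real.sqrt (m 0 ^ 2 + m 1 ^ 2)

theorem nrm_nonneg (m : Fin 2 → ℝ) : 0 ≤ nrm m := Real.sqrt_nonneg _

theorem polar (m : Fin 2 → ℝ) : ∃ θ : ℝ, ∀ x : Fin 2 → ℝ, ∑ k, m k * x k = nrm m * fn θ x := by
  have h := Complex.norm_mul_cos_arg (⟨m 1, -m 0⟩ : ℂ)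
  have h' := Complex.norm_mul_sin_arg (⟨m 1, -m 0⟩ : ℂ)
  have hn : ‖(⟨m 1, -m 0⟩ : ℂ)‖ = nrm m := by
    rw [Complex.norm_def, Complex.normSq_mk]
    unfold nrm
    congr 1
    ring
  rw [hn] at h h'
  refine ⟨Complex.arg ⟨m 1, -m 0⟩, fun x => ?_⟩
  unfold fn
  rw [Fin.sum_univ_two]
  simp only at h h'
  linear_combination -x 1 * h + x 0 * h'

/-- an angle of the direction `m` -/
noncomputable def ang (m : Fin 2 → ℝ) : ℝ := (polar m).choose

theorem ang_spec (m x : Fin 2 → ℝ) : ∑ k, m k * x k = nrm m * fn (ang m) x := (polar m).choose_spec x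

/-- the box of the functional `F` around the ray `o` -/
noncomputable def bxF (F : Fu) (o : Ry) (b R : ℕ) : Cbx :=
  ⟨ang (F.nr o), (1 / 2) ^ R, (1 / 2) ^ b, F.κ / nrm (F.nr o), F.α / nrm (F.nr o), o.y, o.s, o.z⟩

theorem bin_bxF (K : ℝ) (F : Fu) (o l : Ry) (b R : ℕ) (hn : 0 < nrm (F.nr o))
    (h1 : ∀ k, |l.y k - o.y k| ≤ K * (1 / 2) ^ b) (h2 : ∀ k, |l.s k - o.s k| ≤ K * (1 / 2) ^ b)
    (h3 : |l.z + ∑ k, l.y k * (l.s k - o.s k) - o.z| ≤ K * ((1 / 2) ^ b) ^ 2)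
    (h4 : |F.v0 l - F.v0 o| ≤ K * (1 / 2) ^ R * nrm (F.nr o))
    (h5 : |F.v1 l - F.v1 o| ≤ K * (1 / 2) ^ R * nrm (F.nr o)) : Bin K (bxF F o b R) 0 l := by
  refine ⟨h1, h2, ?_, ?_, ?_⟩
  · simp only [bxF]
    rw [max_eq_left (by positivity)]
    exact h3
  · simp only [bxF]
    have e : fn (ang (F.nr o)) (l.y - o.y) + F.κ / nrm (F.nr o) *
        (l.z + ∑ k, l.y k * (l.s k - o.s k) - o.z) - F.α / nrm (F.nr o) * ∑ k, (l.y k - o.y k) ^ 2 =
        (F.v0 l - F.v0 o) / nrm (F.nr o) := by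
      rw [v0_sub]
      have := ang_spec (F.nr o) (l.y - o.y)
      simp only [Pi.sub_apply] at this
      rw [this]
      field_simp
    rw [e, abs_div, abs_of_pos hn, div_le_iff₀ hn]
    exact h4
  · simp only [bxF]
    have e : fn (ang (F.nr o)) (l.s - o.s) + F.κ / nrm (F.nr o) * (∑ k, (l.s k - o.s k) ^ 2) / 2 +
        2 * (F.α / nrm (F.nr o)) * (l.z + ∑ k, o.y k * (l.s k - o.s k) - o.z) =
        (F.v1 l - F.v1 o) / nrm (F.nr o) := by
      rw [v1_sub]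
      have := ang_spec (F.nr o) (l.s - o.s)
      simp only [Pi.sub_apply] at this
      rw [this]
      field_simp
    rw [e, abs_div, abs_of_pos hn, div_le_iff₀ hn]
    exact h5

/-- the digits which determine the box -/
noncomputable def dg (b R : ℕ) (F : Fu) (l : Ry) :
    ((Fin 2 → ℤ) × (Fin 2 → ℤ) × ℤ) × ℤ × ℤ := (pl b l, fl1 R (F.v0 l), fl1 R (F.v1 l))

theorem pl_close {b : ℕ} {l o : Ry} (h : pl b l = pl b o) :
    (∀ k, |l.y k - o.y k| ≤ (1 / 2) ^ b) ∧ (∀ k, |l.s k - o.s k| ≤ (1 / 2) ^ b) ∧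
      |l.z + ∑ k, l.y k * (l.s k - o.s k) - o.z| ≤ 3 * ((1 / 2) ^ b) ^ 2 := by
  unfold pl plm at h
  simp only [Prod.mk.injEq] at h
  obtain ⟨hs, hy, hz⟩ := h
  have h1 : ∀ k, |l.y k - o.y k| ≤ (1 / 2) ^ b := fl_close hy
  have h2 : ∀ k, |l.s k - o.s k| ≤ (1 / 2) ^ b := fl_close hs
  refine ⟨h1, h2, ?_⟩
  have h3 := fl1_close hz
  have hb : (0 : ℝ) < (1 / 2) ^ b := by positivity
  have h5 : ∀ k, |o.s k - (fl b o.s k : ℝ) / 2 ^ b| ≤ (1 / 2) ^ b := by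
    intro k
    have e1 := Int.floor_le ((2 : ℝ) ^ b * o.s k)
    have e2 := Int.lt_floor_add_one ((2 : ℝ) ^ b * o.s k)
    have e3 : o.s k - (fl b o.s k : ℝ) / 2 ^ b =
        ((2 : ℝ) ^ b * o.s k - (⌊(2 : ℝ) ^ b * o.s k⌋ : ℝ)) * (1 / 2) ^ b := by
      unfold fl
      rw [one_div, inv_pow]
      field_simp
    rw [e3, abs_mul, abs_of_pos hb]
    refine mul_le_of_le_one_left hb.le ?_
    rw [abs_le]
    constructor <;> linarith
  have e : l.z + ∑ k, l.y k * (l.s k - o.s k) - o.z =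
      ((l.z + ∑ k, l.y k * (l.s k - (fl b l.s k : ℝ) / 2 ^ b)) -
        (o.z + ∑ k, o.y k * (o.s k - (fl b o.s k : ℝ) / 2 ^ b))) -
      ∑ k, (l.y k - o.y k) * (o.s k - (fl b o.s k : ℝ) / 2 ^ b) := by
    rw [hs]
    simp only [Fin.sum_univ_two]
    ring
  have h6 : |∑ k, (l.y k - o.y k) * (o.s k - (fl b o.s k : ℝ) / 2 ^ b)| ≤ 2 * ((1 / 2) ^ b) ^ 2 := by
    refine (Finset.abs_sum_le_sum_abs _ _).trans ?_
    rw [Fin.sum_univ_two, abs_mul, abs_mul]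
    have a1 := mul_le_mul (h1 0) (h5 0) (abs_nonneg _) hb.le
    have a2 := mul_le_mul (h1 1) (h5 1) (abs_nonneg _) hb.le
    nlinarith
  rw [e]
  refine (abs_sub _ _).trans ?_
  have e7 : ((1 / 2 : ℝ) ^ (2 * b)) = ((1 / 2) ^ b) ^ 2 := by rw [mul_comm, pow_mul]
  rw [e7] at h3
  linarith

/-- rays with the same digits are in one box -/
theorem bin_of_dg {K : ℝ} {F : Fu} {o l : Ry} {b R : ℕ} (hK : 3 ≤ K) (hn : 1 ≤ K * nrm (F.nr o))
    (h : dg b R F l = dg b R F o) : Bin K (bxF F o b R) 0 l := by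
  unfold dg at h
  simp only [Prod.mk.injEq] at h
  obtain ⟨h1, h2, h3⟩ := h
  obtain ⟨p1, p2, p3⟩ := pl_close h1
  have hb : (0 : ℝ) < (1 / 2) ^ b := by positivity
  have hR : (0 : ℝ) < (1 / 2) ^ R := by positivity
  have hn0 : 0 < nrm (F.nr o) := by
    by_contra hc
    push Not at hc
    have : K * nrm (F.nr o) ≤ 0 := mul_nonpos_of_nonneg_of_nonpos (by linarith) hc
    linarith
  have e4 := fl1_close h2
  have e5 := fl1_close h3
  have e6 : (1 / 2 : ℝ) ^ R ≤ K * (1 / 2) ^ R * nrm (F.nr o) := by nlinarith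
  refine bin_bxF K F o l b R hn0 (fun k => (p1 k).trans ?_) (fun k => (p2 k).trans ?_)
    (p3.trans ?_) (e4.trans e6) (e5.trans e6)
  · nlinarith
  · nlinarith
  · have : (0 : ℝ) < ((1 / 2) ^ b) ^ 2 := by positivity
    nlinarith

section finite

variable {Ω : Type} [Fintype Ω]

/-- **labels from functionals** : a label of level `a`, cap `2^-b`, thickness `2^-R` which is a function of the functional and
of the digits -/
theorem labOf (P : Law Ω) (l : Ω → Ry) (t : Ω → ℝ) (L a b R : ℕ) (c : ℝ) (F : Ω → Fu)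
    (hbR : b ≤ R) (haR : a + R ≤ L) (hc : 3 ≤ c)
    (hn : ∀ ω, 0 < P.w ω → 1 ≤ c * nrm ((F ω).nr (bl a (l ω) (t ω))))
    (hκ : ∀ ω, 0 < P.w ω → |(F ω).κ| * (1 / 2) ^ b ≤ c * nrm ((F ω).nr (bl a (l ω) (t ω))))
    (hα : ∀ ω, 0 < P.w ω → |(F ω).α| * (1 / 2) ^ b ≤ c * nrm ((F ω).nr (bl a (l ω) (t ω)))) :
    ∃ A : Fu × ((Fin 2 → ℤ) × (Fin 2 → ℤ) × ℤ) × ℤ × ℤ → Cbx, ∀ ω, 0 < P.w ω →
      LbOk c L a (A (F ω, dg b R (F ω) (bl a (l ω) (t ω)))) (l ω) (t ω) ∧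
      (A (F ω, dg b R (F ω) (bl a (l ω) (t ω)))).u2 = (1 / 2) ^ b ∧
      (A (F ω, dg b R (F ω) (bl a (l ω) (t ω)))).u1 = (1 / 2) ^ R := by
  classical
  set D : Ω → Fu × ((Fin 2 → ℤ) × (Fin 2 → ℤ) × ℤ) × ℤ × ℤ :=
    fun ω => (F ω, dg b R (F ω) (bl a (l ω) (t ω))) with hD
  have hex : ∀ x, ∃ B : Cbx, ∀ ω, 0 < P.w ω → D ω = x →
      LbOk c L a B (l ω) (t ω) ∧ B.u2 = (1 / 2) ^ b ∧ B.u1 = (1 / 2) ^ R := by
    intro x
    by_cases h : ∃ ω, 0 < P.w ω ∧ D ω = x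
    · obtain ⟨o, ho, hox⟩ := h
      refine ⟨bxF (F o) (bl a (l o) (t o)) b R, fun ω hω hx => ⟨?_, rfl, rfl⟩⟩
      have hn0 : 0 < nrm ((F o).nr (bl a (l o) (t o))) := by
        by_contra hcon
        push Not at hcon
        have := mul_nonpos_of_nonneg_of_nonpos (by linarith : (0 : ℝ) ≤ c) hcon
        linarith [hn o ho]
      have hDD : D ω = D o := hx.trans hox.symm
      simp only [hD, Prod.mk.injEq] at hDD
      obtain ⟨hF, hdg⟩ := hDD
      refine ⟨⟨b, R, rfl, rfl, hbR, haR⟩, ?_, ?_, ?_⟩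
      · simp only [bxF]
        rw [abs_div, abs_of_pos hn0, div_mul_eq_mul_div, div_le_iff₀ hn0]
        exact hα o ho
      · simp only [bxF]
        rw [abs_div, abs_of_pos hn0, div_mul_eq_mul_div, div_le_iff₀ hn0]
        exact hκ o ho
      · refine bin_of_dg hc (hn o ho) ?_
        rw [hF] at hdg
        exact hdg
    · push Not at h
      exact ⟨⟨0, 0, 0, 0, 0, fun _ => 0, fun _ => 0, 0⟩, fun ω hω hx => absurd hx (h ω hω)⟩
  choose A hA using hex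
  exact ⟨A, fun ω hω => hA _ ω hω rfl⟩

end finite

/-- the functional in the coordinates of the time block which begins at the time `q` and has length `2^-m` -/
noncomputable def tr (m : ℕ) (q : ℝ) (F : Fu) : Fu := ⟨F.n, F.κ + 2 * F.α * q, F.α / 2 ^ m⟩

/-- the ray in this block -/
noncomputable def sub (m : ℕ) (q : ℝ) (l : Ry) : Ry :=
  ⟨fun k => 2 ^ m * (l.y k + q * l.s k), l.s, 2 ^ m * (l.z - q * (∑ k, l.s k ^ 2) / 2)⟩

theorem v0_tr (m : ℕ) (q : ℝ) (F : Fu) (l : Ry) :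
    (tr m q F).v0 (sub m q l) = 2 ^ m * (F.v0 l + q * F.v1 l) := by
  unfold tr sub Fu.v0 Fu.v1
  simp only [Fin.sum_univ_two]
  field_simp
  ring

theorem v1_tr (m : ℕ) (q : ℝ) (F : Fu) (l : Ry) : (tr m q F).v1 (sub m q l) = F.v1 l := by
  unfold tr sub Fu.v1
  simp only [Fin.sum_univ_two]
  field_simp
  ring

theorem nr_tr (m : ℕ) (q : ℝ) (F : Fu) (l : Ry) : (tr m q F).nr (sub m q l) = F.nr l := by
  funext k
  unfold tr sub Fu.nr
  field_simp
  ring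

/-- the block of level `a + m` inside the block of level `a` -/
theorem bl_add (a m : ℕ) (l : Ry) (t : ℝ) :
    bl (a + m) l t = sub m (2 ^ a * (qa (a + m) t - qa a t)) (bl a l t) := by
  unfold bl sub Ry.pos
  simp only [Ry.mk.injEq, true_and]
  refine ⟨?_, ?_⟩
  · funext k
    rw [pow_add]
    ring
  · rw [pow_add]
    ring

theorem q_nonneg (a m : ℕ) (t : ℝ) : 0 ≤ 2 ^ a * (qa (a + m) t - qa a t) ∧
    2 ^ a * (qa (a + m) t - qa a t) ≤ 1 := by
  have h1 := Int.floor_le ((2 : ℝ) ^ (a + m) * t)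
  have h2 := Int.lt_floor_add_one ((2 : ℝ) ^ (a + m) * t)
  have h3 := Int.floor_le ((2 : ℝ) ^ a * t)
  have h4 := Int.lt_floor_add_one ((2 : ℝ) ^ a * t)
  have hp : (0 : ℝ) < 2 ^ (a + m) := by positivity
  have ha : (0 : ℝ) < 2 ^ a := by positivity
  have hm : (0 : ℝ) < 2 ^ m := by positivity
  have h5 : (⌊(2 : ℝ) ^ a * t⌋ : ℝ) * 2 ^ m ≤ ⌊(2 : ℝ) ^ (a + m) * t⌋ := by
    have : ((⌊(2 : ℝ) ^ a * t⌋ * 2 ^ m : ℤ) : ℝ) ≤ 2 ^ (a + m) * t := by
      push_cast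
      rw [pow_add]
      nlinarith
    have := Int.le_floor.2 this
    exact_mod_cast this
  have e : 2 ^ a * (qa (a + m) t - qa a t) =
      ((⌊(2 : ℝ) ^ (a + m) * t⌋ : ℝ) - (⌊(2 : ℝ) ^ a * t⌋ : ℝ) * 2 ^ m) / 2 ^ m := by
    unfold qa fl1
    rw [pow_add]
    field_simp
  rw [e]
  refine ⟨div_nonneg (by linarith) hm.le, ?_⟩
  rw [div_le_one hm]
  have : (2 : ℝ) ^ (a + m) * t = 2 ^ m * (2 ^ a * t) := by rw [pow_add]; ring
  nlinarith

end Vale.Agent.P106.U.FL
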