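import Vale.Agent.P106.U.H459.C1Props
import Vale.Agent.P106.U.H377.FunDg

/-!
# P106 / U / H377 : geometry of `Env` (END7)

* `fG E π` : the functional `∑ π_k X_k`, `v0_fG`, `v1_fG`, `nr_fG` (its direction is the screen covector `cov`).
* `dG` : exact difference of the functional of the slab at a time `τ` for two rays.
* `pos_close` : two rays with the same `Zh a` have positions at distance `≤ 28 · 2^-a`.
-/

set_option autoImplicit false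

namespace Vale.Agent.P106.U.End7

open Finset Vale.Agent.P127 Vale.Agent.P127.Stk Vale.Agent.P127.U Vale.Agent.P127.U.CellD Vale.Agent.P127.U.Mic
open Vale.Agent.P106.W Vale.Agent.P106.U.FL
open Vale.Agent.P106.K (Ry RyOk bl Bin)
open Vale.Agent.P122.C2 (fw fn)
open Vale.Agent.P127.Stk.Bs (fl_close fl1_close hc_fl_diam)

variable {Ω : Type} (E : Env Ω)

/-- the functional `∑ π_k X_k` -/
noncomputable def fG (π : Fin 3 → ℝ) : Fu :=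
  ⟨fun k => π 0 * (![Real.cos E.B0.θ, Real.sin E.B0.θ] : Fin 2 → ℝ) k / 2 + π 2 * (2 ^ E.q * (fuW E.B0).n k),
    π 1 + π 2 * (2 ^ E.q * E.B0.κ), π 2 * (2 ^ E.q * E.B0.α)⟩

theorem v0_fG (π : Fin 3 → ℝ) (ω : Ω) : (fG E π).v0 (E.l ω) =
    ∑ k, π k * E.X ω k + π 2 * (2 ^ E.q * (fuW E.B0).v0 (cenW E.B0)) := by
  have h := v0_fuW E.B0 (E.l ω)
  have h2 : E.B0.g0 (E.l ω).y (E.l ω).s (E.l ω).z =
      (fuW E.B0).v0 (E.l ω) - (fuW E.B0).v0 (cenW E.B0) := by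
    rw [h]
    rfl
  unfold Env.X
  rw [Fin.sum_univ_three]
  simp only [Matrix.cons_val_zero, Matrix.cons_val_one, Matrix.cons_val_two, Matrix.head_cons,
    Matrix.tail_cons, Matrix.cons_val]
  rw [h2]
  unfold fG Fu.v0 fw K.Ry.hgt
  simp only [Fin.sum_univ_two, fuW]
  simp
  ring

theorem v1_fG (π : Fin 3 → ℝ) (ω : Ω) : (fG E π).v1 (E.l ω) =
    ∑ k, π k * E.Q ω k + π 2 * (2 ^ E.q * (fuW E.B0).v1 (cenW E.B0)) := by
  have h := v1_fuW E.B0 (E.l ω)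
  have h2 : E.B0.g1 (E.l ω).y (E.l ω).s (E.l ω).z =
      (fuW E.B0).v1 (E.l ω) - (fuW E.B0).v1 (cenW E.B0) := by
    rw [h]
    rfl
  unfold Env.Q
  rw [Fin.sum_univ_three]
  simp only [Matrix.cons_val_zero, Matrix.cons_val_one, Matrix.cons_val_two, Matrix.head_cons,
    Matrix.tail_cons, Matrix.cons_val]
  rw [h2]
  unfold fG Fu.v1 fw
  simp only [Fin.sum_univ_two, fuW]
  simp
  ring

theorem nr_fG (π : Fin 3 → ℝ) (l : Ry) : (fG E π).nr l = cov E π l := by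
  funext k
  unfold fG Fu.nr cov Cbx.nn
  fin_cases k
  · simp [fuW]
    ring
  · simp [fuW]
    ring

/-- exact difference of the functional of a box at the time `τ` on two rays -/
theorem dG (B : Cbx) (τ : ℝ) (l o : Ry) :
    (B.g0 l.y l.s l.z + τ * B.g1 l.y l.s l.z) - (B.g0 o.y o.s o.z + τ * B.g1 o.y o.s o.z) =
      fn B.θ (fun k => (l.y k + τ * l.s k) - (o.y k + τ * o.s k)) +
      (B.κ + 2 * B.α * τ) * ((l.z + ∑ k, l.y k * l.s k + τ * (∑ k, l.s k ^ 2) / 2) -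
        (o.z + ∑ k, o.y k * o.s k + τ * (∑ k, o.s k ^ 2) / 2)) -
      ∑ k, ((l.y k + τ * l.s k) - (o.y k + τ * o.s k)) *
        (B.κ * B.v k + B.α * ((l.y k + τ * l.s k) + (o.y k + τ * o.s k) - 2 * B.p k)) := by
  unfold Cbx.g0 Cbx.g1 fn
  simp only [Fin.sum_univ_two, Pi.sub_apply]
  ring

theorem dot_eq (θ : ℝ) (x w : Fin 2 → ℝ) : ∑ k, x k * w k = fn θ x * fn θ w + fw θ x * fw θ w := by
  have h := Real.sin_sq_add_cos_sq θ
  unfold fn fw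
  simp only [Fin.sum_univ_two]
  linear_combination (-(x 0 * w 0) - x 1 * w 1) * h

theorem sq_eq (θ : ℝ) (w : Fin 2 → ℝ) : fn θ w ^ 2 + fw θ w ^ 2 = w 0 ^ 2 + w 1 ^ 2 := by
  have h := dot_eq θ w w
  simp only [Fin.sum_univ_two] at h
  linarith [sq (fn θ w), sq (fw θ w), sq (w 0), sq (w 1)]

theorem comp_le {θ A B C : ℝ} {x : Fin 2 → ℝ} (h1 : |fn θ x| ≤ A) (h2 : |fw θ x| ≤ B) (hC : 0 ≤ C)
    (h : A ^ 2 + B ^ 2 ≤ C ^ 2) (k : Fin 2) : |x k| ≤ C := by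
  have hxq := sq_eq θ x
  have c1 : fn θ x ^ 2 ≤ A ^ 2 := sq_le_sq' (abs_le.1 h1).1 (abs_le.1 h1).2
  have c2 : fw θ x ^ 2 ≤ B ^ 2 := sq_le_sq' (abs_le.1 h2).1 (abs_le.1 h2).2
  have h0 := sq_nonneg (x 0)
  have h1' := sq_nonneg (x 1)
  refine abs_le_of_sq_le_sq ?_ hC
  fin_cases k
  · show x 0 ^ 2 ≤ _
    linarith
  · show x 1 ^ 2 ≤ _
    linarith

theorem dir_le {θ : ℝ} {w : Fin 2 → ℝ} (hw8 : ∀ k, |w k| ≤ 5 / 8) :
    |fn θ w| ≤ 885 / 1000 ∧ |fw θ w| ≤ 885 / 1000 := by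
  have hsq := sq_eq θ w
  have hw0 : w 0 ^ 2 ≤ (5 / 8) ^ 2 := sq_le_sq' (abs_le.1 (hw8 0)).1 (abs_le.1 (hw8 0)).2
  have hw1 : w 1 ^ 2 ≤ (5 / 8) ^ 2 := sq_le_sq' (abs_le.1 (hw8 1)).1 (abs_le.1 (hw8 1)).2
  have h1 := sq_nonneg (fw θ w)
  have h2 := sq_nonneg (fn θ w)
  exact ⟨abs_le_of_sq_le_sq (by linarith) (by norm_num), abs_le_of_sq_le_sq (by linarith) (by norm_num)⟩

theorem w_le {κ α τ v p y s y' s' : ℝ} (hτ0 : 0 ≤ τ) (hτ1 : τ ≤ 1) (hα : |α| ≤ 1 / 8)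
    (hκ : |κ| ≤ 1 / 8) (hv : |v| ≤ 1) (hl : |y - p| ≤ 1) (ho : |y' - p| ≤ 1) (hls : |s| ≤ 1)
    (hos : |s'| ≤ 1) : |κ * v + α * ((y + τ * s) + (y' + τ * s') - 2 * p)| ≤ 5 / 8 := by
  have h1 : |κ * v| ≤ 1 / 8 := by
    rw [abs_mul]
    calc |κ| * |v| ≤ 1 / 8 * 1 := mul_le_mul hκ hv (abs_nonneg _) (by norm_num)
      _ = 1 / 8 := by norm_num
  have h2 : |(y + τ * s) + (y' + τ * s') - 2 * p| ≤ 4 := by
    have a1 : |τ * s| ≤ 1 := by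
      rw [abs_mul, abs_of_nonneg hτ0]
      calc τ * |s| ≤ 1 * 1 := mul_le_mul hτ1 hls (abs_nonneg _) (by norm_num)
        _ = 1 := by norm_num
    have a2 : |τ * s'| ≤ 1 := by
      rw [abs_mul, abs_of_nonneg hτ0]
      calc τ * |s'| ≤ 1 * 1 := mul_le_mul hτ1 hos (abs_nonneg _) (by norm_num)
        _ = 1 := by norm_num
    rw [abs_le] at a1 a2 hl ho ⊢
    constructor <;> linarith [a1.1, a1.2, a2.1, a2.2, hl.1, hl.2, ho.1, ho.2]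
  have h3 : |α * ((y + τ * s) + (y' + τ * s') - 2 * p)| ≤ 1 / 2 := by
    rw [abs_mul]
    calc |α| * _ ≤ 1 / 8 * 4 := mul_le_mul hα h2 (abs_nonneg _) (by norm_num)
      _ = 1 / 2 := by norm_num
  calc _ ≤ |κ * v| + |α * ((y + τ * s) + (y' + τ * s') - 2 * p)| := abs_add_le _ _
    _ ≤ 5 / 8 := by linarith

theorem kt_le {κ α τ : ℝ} (hτ0 : 0 ≤ τ) (hτ1 : τ ≤ 1) (hα : |α| ≤ 1 / 8) (hκ : |κ| ≤ 1 / 8) :
    |κ + 2 * α * τ| ≤ 3 / 8 := by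
  have a1 : |2 * α * τ| ≤ 1 / 4 := by
    rw [abs_mul, abs_mul, abs_of_nonneg hτ0, abs_of_pos (by norm_num : (0 : ℝ) < 2)]
    have : 2 * |α| ≤ 1 / 4 := by linarith
    calc 2 * |α| * τ ≤ 1 / 4 * 1 := mul_le_mul this hτ1 hτ0 (by norm_num)
      _ = 1 / 4 := by norm_num
  calc |κ + 2 * α * τ| ≤ |κ| + |2 * α * τ| := abs_add_le _ _
    _ ≤ 3 / 8 := by linarith

/-- the real inequality -/
theorem pos_real {f g fw' gw dG dz κt u : ℝ} (hu0 : 0 ≤ u) (hmain : f * (1 - g) = dG - κt * dz + fw' * gw)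
    (hG : |dG| ≤ u) (hz : |dz| ≤ u) (hV : |fw'| ≤ 2 * u) (hκ : |κt| ≤ 3 / 8) (hg : |g| ≤ 885 / 1000)
    (hgw : |gw| ≤ 885 / 1000) : |f| ≤ 28 * u := by
  have b1 : |κt * dz| ≤ 3 / 8 * u := by
    rw [abs_mul]
    exact mul_le_mul hκ hz (abs_nonneg _) (by norm_num)
  have b2 : |fw' * gw| ≤ 2 * u * (885 / 1000) := by
    rw [abs_mul]
    exact mul_le_mul hV hgw (abs_nonneg _) (by linarith)
  have b3 : |f * (1 - g)| ≤ (3145 / 1000) * u := by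
    rw [hmain]
    rw [abs_le] at hG b1 b2 ⊢
    constructor <;> linarith [hG.1, hG.2, b1.1, b1.2, b2.1, b2.2]
  have b4 : |f| * (115 / 1000) ≤ |f * (1 - g)| := by
    rw [abs_mul]
    refine mul_le_mul_of_nonneg_left ?_ (abs_nonneg _)
    have := abs_le.1 hg
    rw [abs_of_nonneg (by linarith [this.2])]
    linarith [this.2]
  linarith [abs_nonneg f]

/-- the positions at the time `τ` of two rays of the slab from the three coordinates -/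
theorem pos_aux (B : Cbx) (τ u : ℝ) (l o : Ry) (hτ0 : 0 ≤ τ) (hτ1 : τ ≤ 1) (hα : |B.α| ≤ 1 / 8)
    (hκ : |B.κ| ≤ 1 / 8) (hv : ∀ k, |B.v k| ≤ 1) (hu0 : 0 ≤ u)
    (hl : ∀ k, |l.y k - B.p k| ≤ 1) (ho : ∀ k, |o.y k - B.p k| ≤ 1)
    (hls : ∀ k, |l.s k| ≤ 1) (hos : ∀ k, |o.s k| ≤ 1)
    (hV : |fw B.θ (fun k => (l.y k + τ * l.s k) - (o.y k + τ * o.s k))| ≤ 2 * u)
    (hz : |(l.z + ∑ k, l.y k * l.s k + τ * (∑ k, l.s k ^ 2) / 2) -
        (o.z + ∑ k, o.y k * o.s k + τ * (∑ k, o.s k ^ 2) / 2)| ≤ u)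
    (hG : |(B.g0 l.y l.s l.z + τ * B.g1 l.y l.s l.z) - (B.g0 o.y o.s o.z + τ * B.g1 o.y o.s o.z)| ≤ u) :
    ∀ k, |(l.y k + τ * l.s k) - (o.y k + τ * o.s k)| ≤ 30 * u := by
  have h := dG B τ l o
  have hsum := dot_eq B.θ (fun k => (l.y k + τ * l.s k) - (o.y k + τ * o.s k)) (fun k => B.κ * B.v k +
    B.α * ((l.y k + τ * l.s k) + (o.y k + τ * o.s k) - 2 * B.p k))
  obtain ⟨hfn, hfw⟩ := dir_le (θ := B.θ) (w := fun k => B.κ * B.v k +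
    B.α * ((l.y k + τ * l.s k) + (o.y k + τ * o.s k) - 2 * B.p k))
    (fun k => w_le hτ0 hτ1 hα hκ (hv k) (hl k) (ho k) (hls k) (hos k))
  have hf : |fn B.θ (fun k => (l.y k + τ * l.s k) - (o.y k + τ * o.s k))| ≤ 28 * u := by
    refine pos_real hu0 ?_ hG hz hV (kt_le hτ0 hτ1 hα hκ) hfn hfw
    linarith
  intro k
  exact comp_le hf hV (by linarith) (by nlinarith) k

section finite

variable [Fintype Ω] {E}

/-- **positions from the cell** : two rays with the same `Zh a` -/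
theorem pos_close {P : Law Ω} (hS : E.Supp P) {a : ℕ} {ω ω' : Ω} (hω : 0 < P.w ω) (hω' : 0 < P.w ω')
    (h : E.Zh a ω = E.Zh a ω') :
    fl1 a (E.t ω) = fl1 a (E.t ω') ∧
    (∀ k, |((E.l ω).y k + rd a (E.t ω) * (E.l ω).s k) -
      ((E.l ω').y k + rd a (E.t ω) * (E.l ω').s k)| ≤ 30 * (1 / 2) ^ a) ∧
    |(E.l ω).hgt (rd a (E.t ω)) - (E.l ω').hgt (rd a (E.t ω))| ≤ (1 / 2) ^ a ∧
    |(E.B0.g0 (E.l ω).y (E.l ω).s (E.l ω).z + rd a (E.t ω) * E.B0.g1 (E.l ω).y (E.l ω).s (E.l ω).z) -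
      (E.B0.g0 (E.l ω').y (E.l ω').s (E.l ω').z + rd a (E.t ω) * E.B0.g1 (E.l ω').y (E.l ω').s (E.l ω').z)| ≤
      (1 / 2) ^ a * (1 / 2) ^ E.q := by
  unfold Env.Zh at h
  simp only [Prod.mk.injEq] at h
  obtain ⟨ht, hx⟩ := h
  have hrd : rd a (E.t ω') = rd a (E.t ω) := by
    unfold rd
    rw [ht]
  rw [hrd] at hx
  set τ := rd a (E.t ω) with hτ
  have hτ0 : 0 ≤ τ := by
    rw [hτ]
    unfold rd fl1
    refine div_nonneg ?_ (by positivity)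
    exact_mod_cast Int.floor_nonneg.2 (mul_nonneg (by positivity) (hS.ok ω hω).2.1)
  have hτ1 : τ ≤ 1 := by
    have := rd_le a (E.t ω)
    linarith [(hS.ok ω hω).2.2]
  have c0 := fl1_close (congrFun hx 0)
  have c1 := fl1_close (congrFun hx 1)
  have c2 := fl1_close (congrFun hx 2)
  simp only [Env.X, Env.Q, Matrix.cons_val_zero, Matrix.cons_val_one, Matrix.cons_val_two,
    Matrix.head_cons, Matrix.tail_cons, Matrix.cons_val] at c0 c1 c2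
  have i1 := hS.inn ω hω
  have i2 := hS.inn ω' hω'
  rw [Cbx.in_iff] at i1 i2
  rw [hS.u2] at i1 i2
  have hz : |(E.l ω).hgt τ - (E.l ω').hgt τ| ≤ (1 / 2) ^ a := by
    have e : (E.l ω).hgt τ - (E.l ω').hgt τ = (E.l ω).hgt 0 + τ * ((∑ k, (E.l ω).s k ^ 2) / 2) -
        ((E.l ω').hgt 0 + τ * ((∑ k, (E.l ω').s k ^ 2) / 2)) := by
      unfold K.Ry.hgt
      ring
    rw [e]
    exact c1
  have hG : |(E.B0.g0 (E.l ω).y (E.l ω).s (E.l ω).z + τ * E.B0.g1 (E.l ω).y (E.l ω).s (E.l ω).z) -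
      (E.B0.g0 (E.l ω').y (E.l ω').s (E.l ω').z + τ * E.B0.g1 (E.l ω').y (E.l ω').s (E.l ω').z)| ≤
      (1 / 2) ^ a * (1 / 2) ^ E.q := by
    set A := (E.B0.g0 (E.l ω).y (E.l ω).s (E.l ω).z + τ * E.B0.g1 (E.l ω).y (E.l ω).s (E.l ω).z) -
      (E.B0.g0 (E.l ω').y (E.l ω').s (E.l ω').z + τ * E.B0.g1 (E.l ω').y (E.l ω').s (E.l ω').z)
      with hA
    have e : 2 ^ E.q * E.B0.g0 (E.l ω).y (E.l ω).s (E.l ω).z +
        τ * (2 ^ E.q * E.B0.g1 (E.l ω).y (E.l ω).s (E.l ω).z) -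
        (2 ^ E.q * E.B0.g0 (E.l ω').y (E.l ω').s (E.l ω').z +
        τ * (2 ^ E.q * E.B0.g1 (E.l ω').y (E.l ω').s (E.l ω').z)) = 2 ^ E.q * A := by
      rw [hA]
      ring
    rw [e, abs_mul, abs_of_pos (by positivity)] at c2
    have hq : (2 : ℝ) ^ E.q * (1 / 2) ^ E.q = 1 := by
      rw [← mul_pow]
      norm_num
    have hq0 : (0 : ℝ) < (1 / 2) ^ E.q := by positivity
    calc |A| = (2 ^ E.q * |A|) * (1 / 2) ^ E.q := by
          rw [mul_right_comm, hq, one_mul]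
      _ ≤ (1 / 2) ^ a * (1 / 2) ^ E.q := mul_le_mul_of_nonneg_right c2 hq0.le
  refine ⟨ht, ?_, hz, hG⟩
  have hq1 : ((1 / 2 : ℝ)) ^ E.q ≤ 1 := pow_le_one₀ (by norm_num) (by norm_num)
  have ha0 : (0 : ℝ) < (1 / 2) ^ a := by positivity
  refine pos_aux E.B0 τ ((1 / 2) ^ a) (E.l ω) (E.l ω') hτ0 hτ1 hS.α8 hS.κ8 hS.v1 ha0.le i1.1 i2.1
    (hS.ok ω hω).1.2.1 (hS.ok ω' hω').1.2.1 ?_ ?_ ?_
  · have e : fw E.B0.θ (fun k => ((E.l ω).y k + τ * (E.l ω).s k) -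
        ((E.l ω').y k + τ * (E.l ω').s k)) =
        2 * (fw E.B0.θ (E.l ω).y / 2 + τ * (fw E.B0.θ (E.l ω).s / 2) -
          (fw E.B0.θ (E.l ω').y / 2 + τ * (fw E.B0.θ (E.l ω').s / 2))) := by
      unfold fw
      ring
    rw [e, abs_mul, abs_of_pos (by norm_num : (0 : ℝ) < 2)]
    linarith
  · exact hz
  · refine hG.trans ?_
    nlinarith

end finite

end Vale.Agent.P106.U.End7
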