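import Mathlib

/-!
# P106 / U / H377 : counting lattice points and cubes by volume (block LAT)

* `fib_vol` : if the image of the unit cube of each `q ∈ S` under `x ↦ ∑ x_k M_k` lies in a box of
  half-side `r`, then `|S| |det M| ≤ (2 r)^d`;
* `crs_vol` : if `L · cube q - z` lies in the image of the cube `[a, b]^d` for each `q ∈ S`, then
  `|S| L^d ≤ |det M| (b - a)^d`;
* `solve` : `v = ∑ x_k M_k` with `|x_k| ≤ K / |det M|`.
-/

set_option autoImplicit false

namespace Vale.Agent.P106.U.LatV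

open Finset MeasureTheory

variable {d : ℕ}

/-- the unit cube of `q` -/
def cub (q : Fin d → ℤ) : Set (Fin d → ℝ) := Set.univ.pi fun i => Set.Ico (q i : ℝ) ((q i : ℝ) + 1)

theorem mem_cub {q : Fin d → ℤ} {x : Fin d → ℝ} : x ∈ cub q ↔ ∀ i, ⌊x i⌋ = q i := by
  unfold cub
  rw [Set.mem_univ_pi]
  refine forall_congr' fun i => ?_
  rw [Set.mem_Ico, Int.floor_eq_iff]

theorem vol_cub (q : Fin d → ℤ) : volume (cub q) = 1 := by
  unfold cub
  rw [Real.volume_pi_Ico]
  simp

theorem meas_cub (q : Fin d → ℤ) : MeasurableSet (cub q) :=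
  MeasurableSet.univ_pi fun _ => measurableSet_Ico

theorem vol_cubs (S : Finset (Fin d → ℤ)) : volume (⋃ q ∈ S, cub q) = S.card := by
  rw [measure_biUnion_finset]
  · simp [vol_cub]
  · intro q _ q' _ hne
    rw [Function.onFun, Set.disjoint_left]
    intro x hx hx'
    rw [mem_cub] at hx hx'
    exact hne (funext fun i => (hx i).symm.trans (hx' i))
  · intro q _
    exact meas_cub q

/-- the linear map `x ↦ ∑ x_k M_k` -/
noncomputable def lm (M : Matrix (Fin d) (Fin d) ℝ) : (Fin d → ℝ) →ₗ[ℝ] (Fin d → ℝ) :=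
  Matrix.toLin' M.transpose

theorem lm_apply (M : Matrix (Fin d) (Fin d) ℝ) (x : Fin d → ℝ) (i : Fin d) :
    lm M x i = ∑ k, x k * M k i := by
  unfold lm
  rw [Matrix.toLin'_apply, Matrix.mulVec, dotProduct]
  refine Finset.sum_congr rfl fun k _ => ?_
  rw [Matrix.transpose_apply, mul_comm]

theorem det_lm (M : Matrix (Fin d) (Fin d) ℝ) : LinearMap.det (lm M) = M.det := by
  unfold lm
  rw [LinearMap.det_toLin', Matrix.det_transpose]

theorem fib_vol (S : Finset (Fin d → ℤ)) (M : Matrix (Fin d) (Fin d) ℝ) (c : Fin d → ℝ) (r : ℝ)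
    (hr : 0 ≤ r) (h : ∀ q ∈ S, ∀ x ∈ cub q, ∀ i, |∑ k, x k * M k i - c i| ≤ r) :
    (S.card : ℝ) * |M.det| ≤ (2 * r) ^ d := by
  have h1 : lm M '' (⋃ q ∈ S, cub q) ⊆ Set.Icc (fun i => c i - r) (fun i => c i + r) := by
    rintro _ ⟨x, hx, rfl⟩
    rw [Set.mem_iUnion₂] at hx
    obtain ⟨q, hq, hx⟩ := hx
    rw [Set.mem_Icc]
    constructor
    · intro i
      have := abs_le.1 (h q hq x hx i)
      rw [lm_apply]
      linarith [this.1]
    · intro i
      have := abs_le.1 (h q hq x hx i)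
      rw [lm_apply]
      linarith [this.2]
  have h2 := measure_mono (μ := volume) h1
  rw [Measure.addHaar_image_linearMap, vol_cubs, det_lm, Real.volume_Icc_pi] at h2
  have h3 : ∏ i : Fin d, ENNReal.ofReal (c i + r - (c i - r)) = ENNReal.ofReal ((2 * r) ^ d) := by
    rw [← ENNReal.ofReal_prod_of_nonneg]
    · congr 1
      rw [← Fin.prod_const]
      refine Finset.prod_congr rfl fun i _ => by ring
    · intro i _
      linarith
  rw [h3, ← ENNReal.ofReal_natCast, ← ENNReal.ofReal_mul (abs_nonneg _),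
    ENNReal.ofReal_le_ofReal_iff (by positivity)] at h2
  linarith

theorem crs_vol (S : Finset (Fin d → ℤ)) (M : Matrix (Fin d) (Fin d) ℝ) (z : Fin d → ℝ)
    (L a b : ℝ) (hL : 0 < L) (hab : a ≤ b)
    (h : ∀ q ∈ S, ∀ y ∈ cub q, ∃ x : Fin d → ℝ, (∀ k, a ≤ x k ∧ x k ≤ b) ∧
      ∀ i, ∑ k, x k * M k i = L * y i - z i) :
    (S.card : ℝ) * L ^ d ≤ |M.det| * (b - a) ^ d := by
  have h1 : (⋃ q ∈ S, cub q) ⊆ (fun y : Fin d → ℝ => L • y) ⁻¹' ((fun y => y + (-z)) ⁻¹'
      (lm M '' Set.Icc (fun _ => a) (fun _ => b))) := by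
    intro y hy
    rw [Set.mem_iUnion₂] at hy
    obtain ⟨q, hq, hy⟩ := hy
    obtain ⟨x, hx, hxe⟩ := h q hq y hy
    refine ⟨x, ⟨fun k => (hx k).1, fun k => (hx k).2⟩, ?_⟩
    funext i
    rw [lm_apply, hxe]
    simp [sub_eq_add_neg]
  have h2 := measure_mono (μ := volume) h1
  rw [Measure.addHaar_preimage_smul _ hL.ne', measure_preimage_add_right,
    Measure.addHaar_image_linearMap, vol_cubs, det_lm, Real.volume_Icc_pi] at h2
  have h3 : ∏ _i : Fin d, ENNReal.ofReal (b - a) = ENNReal.ofReal ((b - a) ^ d) := by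
    rw [Fin.prod_const, ENNReal.ofReal_pow (by linarith)]
  have h4 : (0 : ℝ) ≤ (b - a) ^ d := pow_nonneg (by linarith) d
  rw [h3, ← ENNReal.ofReal_natCast, ← ENNReal.ofReal_mul (abs_nonneg _),
    ← ENNReal.ofReal_mul (abs_nonneg _), ENNReal.ofReal_le_ofReal_iff (by positivity)] at h2
  rw [Module.finrank_fin_fun, abs_of_pos (by positivity)] at h2
  have h5 : 0 < L ^ d := by positivity
  rw [← div_eq_inv_mul, le_div_iff₀ h5] at h2
  exact h2

theorem det_le' (M : Matrix (Fin d) (Fin d) ℝ) (hM : ∀ i j, |M i j| ≤ 2) :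
    |M.det| ≤ (d.factorial : ℝ) * 2 ^ d := by
  have := Matrix.det_le (A := M) (abv := AbsoluteValue.abs) (x := (2 : ℝ)) hM
  simpa using this

theorem solve (M : Matrix (Fin d) (Fin d) ℝ) (hM : ∀ i j, |M i j| ≤ 2) (δ : ℝ) (hδ : 0 < δ)
    (hd : δ ≤ |M.det|) (v : Fin d → ℝ) (K : ℝ) (hv : ∀ i, |v i| ≤ K) :
    ∃ x : Fin d → ℝ, (∀ k, |x k| ≤ d * (d.factorial * 2 ^ d) * K / δ) ∧
      ∀ i, ∑ k, x k * M k i = v i := by
  rcases Nat.eq_zero_or_pos d with h0 | h0
  · subst h0
    exact ⟨v, fun k => k.elim0, fun i => i.elim0⟩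
  have hK : 0 ≤ K := (abs_nonneg _).trans (hv ⟨0, h0⟩)
  have hdet : 0 < |M.det| := hδ.trans_le hd
  have hne : M.det ≠ 0 := abs_pos.1 hdet
  refine ⟨fun k => ∑ i, v i * (M.adjugate i k / M.det), fun k => ?_, fun i => ?_⟩
  · have h1 : ∀ i, |M.adjugate i k| ≤ (d.factorial : ℝ) * 2 ^ d := by
      intro i
      rw [Matrix.adjugate_apply]
      refine det_le' _ fun a b => ?_
      rw [Matrix.updateRow_apply]
      split_ifs with hc
      · rw [Pi.single_apply]
        split_ifs <;> norm_num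
      · exact hM a b
    calc |∑ i, v i * (M.adjugate i k / M.det)|
        ≤ ∑ i, |v i * (M.adjugate i k / M.det)| := Finset.abs_sum_le_sum_abs _ _
      _ ≤ ∑ _i : Fin d, K * ((d.factorial : ℝ) * 2 ^ d / δ) := by
          refine Finset.sum_le_sum fun i _ => ?_
          rw [abs_mul, abs_div]
          refine mul_le_mul (hv i) ?_ (by positivity) hK
          exact div_le_div₀ (by positivity) (h1 i) hδ hd
      _ = d * (d.factorial * 2 ^ d) * K / δ := by
          rw [Finset.sum_const, Finset.card_univ, Fintype.card_fin, nsmul_eq_mul]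
          ring
  · have h2 : ∑ k, (∑ j, v j * (M.adjugate j k / M.det)) * M k i =
        ∑ j, v j * ((M.adjugate * M) j i / M.det) := by
      simp only [Finset.sum_mul]
      rw [Finset.sum_comm]
      refine Finset.sum_congr rfl fun j _ => ?_
      rw [Matrix.mul_apply, Finset.sum_div, Finset.mul_sum]
      refine Finset.sum_congr rfl fun k _ => by ring
    rw [h2, Matrix.adjugate_mul]
    rw [Finset.sum_eq_single i]
    · simp [hne]
    · intro j _ hj
      simp [hj]
    · intro hi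
      exact absurd (Finset.mem_univ i) hi

end Vale.Agent.P106.U.LatV
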