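import Vale.Agent.P106.U.H611.Props
import Vale.Agent.P106.U.H377.LatVol
import Vale.Agent.P127.TV.LatHc

/-!
# P106 / U / H377 : block [LAT], `pLat : ∀ d, PLat d`

`d` approximate translations of a law on `R^d` which span `R^d` saturate the integer parts past the
integer parts of `X / L`.
-/

set_option autoImplicit false

namespace Vale.Agent.P106.U.LatV

open Finset Vale.Agent.P127 Vale.Agent.P127.Stk Vale.Agent.P106.U.EndA
open Vale.Agent.P127.TV (Tr SubC spread)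

theorem subC_nonneg {Ω₁ Ω₂ : Type} [Fintype Ω₁] [Fintype Ω₂] {P : Law Ω₁} {Q : Law Ω₂}
    {R : Ω₁ → Ω₂ → Prop} {ε : ℝ} (h : SubC P Q R ε) : 0 ≤ ε := by
  obtain ⟨q, _, h1, _, _, h4⟩ := h
  have : ∑ a, ∑ b, q a b ≤ ∑ a, P.w a := Finset.sum_le_sum fun a _ => h1 a
  rw [P.sum_one] at this
  linarith

variable {d : ℕ} {Ω : Type} [Fintype Ω]

/-- the composition of the translations over a finite set of indices -/
theorem tr_sum {κ : Type} {ι : Type*} (Q : Law Ω) (X : Ω → ι → ℝ) (s : Finset κ)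
    (u c : κ → ι → ℝ) (ε : κ → ℝ) (h : ∀ k ∈ s, Tr Q X (u k) (c k) (ε k)) :
    Tr Q X (fun i => ∑ k ∈ s, u k i) (fun i => ∑ k ∈ s, c k i) (∑ k ∈ s, ε k) := by
  classical
  induction s using Finset.induction_on with
  | empty => simpa using Tr.zero Q X
  | insert a s ha ih =>
    have h1 := (h a (Finset.mem_insert_self a s)).add (ih fun k hk => h k (Finset.mem_insert_of_mem hk))
    simp only [Finset.sum_insert ha]
    exact h1

/-- the lattice of translations -/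
theorem tr_lat (Q : Law Ω) (X : Ω → Fin d → ℝ) (u : Fin d → Fin d → ℝ) (ε : Fin d → ℝ) (ρ : ℝ)
    (R : ℕ) (hρ : 0 ≤ ρ) (hR : d * (R * ρ) ≤ 1) (h : ∀ k, Tr Q X (u k) (fun _ => ρ) (ε k))
    (n : Fin d → Fin R) :
    Tr Q X (fun i => ∑ k, (n k : ℝ) * u k i) (fun _ => 1) (R * ∑ k, ε k) := by
  have h1 := tr_sum Q X (univ : Finset (Fin d)) (fun k i => ((n k : ℕ) : ℝ) * u k i)
    (fun k _ => ((n k : ℕ) : ℝ) * ρ) (fun k => ((n k : ℕ) : ℝ) * ε k)
    (fun k _ => (h k).nsmul (n k : ℕ))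
  have hn : ∀ k, ((n k : ℕ) : ℝ) ≤ R := fun k => by exact_mod_cast (n k).2.le
  refine h1.mono (fun i => ?_) ?_
  · calc ∑ k, ((n k : ℕ) : ℝ) * ρ ≤ ∑ _k : Fin d, (R : ℝ) * ρ :=
          Finset.sum_le_sum fun k _ => mul_le_mul_of_nonneg_right (hn k) hρ
      _ = d * (R * ρ) := by simp
      _ ≤ 1 := hR
  · rw [Finset.mul_sum]
    exact Finset.sum_le_sum fun k _ => mul_le_mul_of_nonneg_right (hn k) (subC_nonneg (h k))

theorem floor_bd {L x : ℝ} (hL : 0 < L) {q : ℤ} (h : ⌊x / L⌋ = q) :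
    (q : ℝ) * L ≤ x ∧ x < (q + 1) * L := by
  rw [Int.floor_eq_iff, le_div_iff₀ hL, div_lt_iff₀ hL] at h
  exact h

/-- the constant -/
noncomputable def C1 (d : ℕ) : ℝ := (d.factorial : ℝ) * 2 ^ d

theorem one_le_C1 (d : ℕ) : 1 ≤ C1 d := by
  unfold C1
  have h1 : (1 : ℝ) ≤ d.factorial := by exact_mod_cast Nat.succ_le_of_lt (Nat.factorial_pos d)
  have h2 : (1 : ℝ) ≤ 2 ^ d := one_le_pow₀ (by norm_num)
  nlinarith

/-- number of translates whose integer parts are given -/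
theorem fib_cnt (X : Ω → Fin d → ℝ) (u : Fin d → Fin d → ℝ) (R : ℕ) (hu : ∀ k i, |u k i| ≤ 2)
    (hdet : 0 < |(Matrix.of u).det|) (a b : Ω) (S : Finset (Fin d → Fin R))
    (hS : ∀ n ∈ S, ∃ b', (∀ i, |X b' i - X a i - ∑ k, ((n k : ℕ) : ℝ) * u k i| ≤ 1) ∧
      (fun k => ⌊X b' k⌋) = fun k => ⌊X b k⌋) :
    (S.card : ℝ) ≤ (4 * d + 4) ^ d / |(Matrix.of u).det| := by
  classical
  have hd0 : (0 : ℝ) ≤ d := Nat.cast_nonneg d
  have hinj : Function.Injective (fun (n : Fin d → Fin R) (k : Fin d) => ((n k : ℕ) : ℤ)) := by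
    intro n n' hk
    funext k
    have := congrFun hk k
    dsimp only at this
    exact Fin.ext (by exact_mod_cast this)
  have hcc : (S.card : ℝ) = ((S.image fun (n : Fin d → Fin R) (k : Fin d) =>
      ((n k : ℕ) : ℤ)).card : ℝ) := by
    rw [Finset.card_image_of_injective _ hinj]
  rw [hcc, le_div_iff₀ hdet]
  refine (fib_vol _ (Matrix.of u) (fun i => (⌊X b i⌋ : ℝ) - X a i) (2 * d + 2) (by linarith)
    ?_).trans ?_
  · intro q hq x hx i
    rw [Finset.mem_image] at hq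
    obtain ⟨n, hn, rfl⟩ := hq
    obtain ⟨b', h1, h2⟩ := hS n hn
    have h3 := h1 i
    have h4 : ⌊X b' i⌋ = ⌊X b i⌋ := congrFun h2 i
    have h5 := Int.floor_le (X b' i)
    have h6 := Int.lt_floor_add_one (X b' i)
    rw [h4] at h5 h6
    rw [mem_cub] at hx
    have h7 : |∑ k, x k * (Matrix.of u) k i - ∑ k, ((n k : ℕ) : ℝ) * u k i| ≤ 2 * d := by
      rw [← Finset.sum_sub_distrib]
      refine (Finset.abs_sum_le_sum_abs _ _).trans ?_
      have : ∀ k ∈ (univ : Finset (Fin d)),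
          |x k * (Matrix.of u) k i - ((n k : ℕ) : ℝ) * u k i| ≤ 2 := by
        intro k _
        have e : x k * (Matrix.of u) k i - ((n k : ℕ) : ℝ) * u k i =
            (x k - ((n k : ℕ) : ℝ)) * u k i := by
          rw [Matrix.of_apply]; ring
        rw [e, abs_mul]
        have h8 := hx k
        rw [Int.floor_eq_iff] at h8
        have h9 : |x k - ((n k : ℕ) : ℝ)| ≤ 1 := by
          rw [abs_le]
          push_cast at h8
          constructor <;> linarith [h8.1, h8.2]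
        calc |x k - ((n k : ℕ) : ℝ)| * |u k i| ≤ 1 * 2 :=
              mul_le_mul h9 (hu k i) (abs_nonneg _) zero_le_one
          _ = 2 := by norm_num
      refine (Finset.sum_le_sum this).trans ?_
      simp
      linarith
    rw [abs_le] at h3 h7 ⊢
    constructor <;> linarith [h3.1, h3.2, h7.1, h7.2]
  · have e1 : (2 * (2 * (d : ℝ) + 2)) = 4 * d + 4 := by ring
    rw [e1]

/-- number of coarse cells met by the translates -/
theorem crs_cnt (X : Ω → Fin d → ℝ) (u : Fin d → Fin d → ℝ) (R : ℕ) (δ L : ℝ)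
    (hu : ∀ k i, |u k i| ≤ 2) (hδ : 0 < δ) (hdet : δ ≤ |(Matrix.of u).det|) (hL : 1 ≤ L)
    (hLR : (2 * d * C1 d) * L ≤ R * δ) (a : Ω) (S : Finset (Fin d → ℤ))
    (hS : ∀ q ∈ S, ∃ (n : Fin d → Fin R) (b : Ω),
      (∀ i, |X b i - X a i - ∑ k, ((n k : ℕ) : ℝ) * u k i| ≤ 1) ∧ (fun k => ⌊X b k / L⌋) = q) :
    (S.card : ℝ) ≤ |(Matrix.of u).det| * (3 * R) ^ d / L ^ d := by
  have hL0 : 0 < L := by linarith
  have hLd : 0 < L ^ d := by positivity
  have hR0 : (0 : ℝ) ≤ R := Nat.cast_nonneg R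
  rw [le_div_iff₀ hLd]
  have e3 : (3 * (R : ℝ)) = 2 * R - (-R) := by ring
  rw [e3]
  refine crs_vol _ (Matrix.of u) (X a) L (-R) (2 * R) hL0 (by linarith) ?_
  intro q hq y hy
  obtain ⟨n, b, hn, rfl⟩ := hS q hq
  rw [mem_cub] at hy
  have hv : ∀ i, |L * y i - X a i - ∑ k, ((n k : ℕ) : ℝ) * u k i| ≤ 2 * L := by
    intro i
    have h3 := hn i
    have h4 := floor_bd hL0 (rfl : ⌊X b i / L⌋ = ⌊X b i / L⌋)
    have h5 := hy i
    have h6 := floor_bd one_pos (x := y i) (q := ⌊X b i / L⌋) (by rw [div_one]; exact h5)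
    have h7 : ((⌊X b i / L⌋ : ℤ) : ℝ) * L ≤ L * y i := by nlinarith [h6.1]
    have h8 : L * y i ≤ (((⌊X b i / L⌋ : ℤ) : ℝ) + 1) * L := by nlinarith [h6.2]
    rw [abs_le] at h3 ⊢
    constructor <;> linarith [h3.1, h3.2, h4.1, h4.2]
  obtain ⟨w, hw, hwe⟩ := solve (Matrix.of u) hu δ hδ hdet
    (fun i => L * y i - X a i - ∑ k, ((n k : ℕ) : ℝ) * u k i) (2 * L) hv
  have hwR : ∀ k, |w k| ≤ R := by
    intro k
    refine (hw k).trans ?_
    rw [div_le_iff₀ hδ]
    refine le_trans (le_of_eq ?_) hLR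
    unfold C1; ring
  refine ⟨fun k => ((n k : ℕ) : ℝ) + w k, fun k => ?_, fun i => ?_⟩
  · have h1 := abs_le.1 (hwR k)
    have h2 : (0 : ℝ) ≤ ((n k : ℕ) : ℝ) := Nat.cast_nonneg _
    have h3 : ((n k : ℕ) : ℝ) ≤ R := by exact_mod_cast (n k).2.le
    constructor <;> linarith [h1.1, h1.2]
  · simp only [add_mul]
    rw [Finset.sum_add_distrib, hwe]
    have : ∑ k, ((n k : ℕ) : ℝ) * (Matrix.of u) k i = ∑ k, ((n k : ℕ) : ℝ) * u k i := rfl
    rw [this]
    ring

theorem x1_ge (δ L D : ℝ) (R : ℕ) (hδ : 0 < δ) (hD : δ ≤ D) (hDC : D ≤ C1 d) (hL : 1 ≤ L)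
    (h3R : C1 d * L ≤ R * δ) (hd : d = 0 → D = 1) : 1 ≤ D * (3 * R) ^ d / L ^ d := by
  have hC1 := one_le_C1 d
  have hL0 : 0 < L := by linarith
  have hLd : 0 < L ^ d := by positivity
  have hD0 : 0 < D := hδ.trans_le hD
  have hR0 : (0 : ℝ) ≤ R := Nat.cast_nonneg R
  have hδC : δ ≤ C1 d := hD.trans hDC
  have hLR' : L ≤ R := by
    by_contra hcon
    push Not at hcon
    have : R * δ < L * C1 d := mul_lt_mul hcon hδC hδ (by linarith)
    linarith
  rw [le_div_iff₀ hLd, one_mul]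
  rcases Nat.eq_zero_or_pos d with h0 | h0
  · subst h0
    simp [hd rfl]
  · obtain ⟨m, hm⟩ := Nat.exists_eq_succ_of_ne_zero h0.ne'
    have e1 : L ^ d ≤ R ^ m * L := by
      rw [hm, pow_succ]
      exact mul_le_mul_of_nonneg_right (pow_le_pow_left₀ hL0.le hLR' m) hL0.le
    have e2 : L ≤ R * D := by
      have : 1 * L ≤ C1 d * L := mul_le_mul_of_nonneg_right hC1 hL0.le
      have h4 : (R : ℝ) * δ ≤ R * D := mul_le_mul_of_nonneg_left hD hR0
      linarith
    have e3 : (R : ℝ) ^ m * L ≤ R ^ m * (R * D) :=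
      mul_le_mul_of_nonneg_left e2 (by positivity)
    have e4' : (R : ℝ) ^ d = R ^ m * R := by rw [hm, pow_succ]
    have e4 : (R : ℝ) ^ m * (R * D) = D * R ^ d := by
      rw [e4']; ring
    have e5 : D * (R : ℝ) ^ d ≤ D * (3 * R) ^ d :=
      mul_le_mul_of_nonneg_left (pow_le_pow_left₀ hR0 (by linarith) d) hD0.le
    linarith

theorem fin_arith (B D L Rr s c : ℝ) (d : ℕ) (hB : 1 ≤ B) (hD : 0 < D) (hL : 1 ≤ L) (hR : 1 ≤ Rr)
    (hs : 0 ≤ s) (hc1 : Real.log (B * 3 ^ d) ≤ c) (hc2 : (d : ℝ) + 1 ≤ c) (h : ℝ)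
    (key : (1 - Rr * s) * (d * Real.log Rr) - Rr * s - (Real.log (B / D) +
      Real.log (D * (3 * Rr) ^ d / L ^ d)) ≤ h) :
    d * Real.log L - c - c * (Rr * (1 + Real.log Rr)) * s ≤ h := by
  have hL0 : 0 < L := by linarith
  have hR0 : 0 < Rr := by linarith
  have hd0 : (0 : ℝ) ≤ d := Nat.cast_nonneg d
  have hlogR : 0 ≤ Real.log Rr := Real.log_nonneg hR
  have e2 : Real.log (B / D) + Real.log (D * (3 * Rr) ^ d / L ^ d) =
      Real.log (B * 3 ^ d) + d * Real.log Rr - d * Real.log L := by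
    have e3 : (B / D) * (D * (3 * Rr) ^ d / L ^ d) = (B * 3 ^ d) * Rr ^ d / L ^ d := by
      rw [mul_pow]
      field_simp
    rw [← Real.log_mul (by positivity) (by positivity), e3,
      Real.log_div (by positivity) (by positivity), Real.log_mul (by positivity) (by positivity),
      Real.log_pow, Real.log_pow]
  have hprod : 0 ≤ Rr * s := by positivity
  have hprod2 : 0 ≤ Rr * s * Real.log Rr := by positivity
  have e5 : (Rr * s) * (d * Real.log Rr) + Rr * s ≤ c * (Rr * (1 + Real.log Rr)) * s := by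
    have a1 : d * (Rr * s * Real.log Rr) ≤ c * (Rr * s * Real.log Rr) :=
      mul_le_mul_of_nonneg_right (by linarith) hprod2
    have a2 : 1 * (Rr * s) ≤ c * (Rr * s) :=
      mul_le_mul_of_nonneg_right (by linarith) hprod
    have a3 : c * (Rr * (1 + Real.log Rr)) * s =
        c * (Rr * s) + c * (Rr * s * Real.log Rr) := by ring
    linarith
  linarith

/-- **[LAT]** -/
theorem pLat (d : ℕ) : PLat d := by
  classical
  set B : ℝ := C1 d * (4 * d + 4) ^ d with hB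
  have hC1 := one_le_C1 d
  have hd0 : (0 : ℝ) ≤ d := Nat.cast_nonneg d
  have h4d : (1 : ℝ) ≤ (4 * d + 4) ^ d := one_le_pow₀ (by linarith)
  have hB1 : 1 ≤ B := by
    rw [hB]
    nlinarith
  have h3d : (1 : ℝ) ≤ 3 ^ d := one_le_pow₀ (by norm_num)
  have hlB : 0 ≤ Real.log (B * 3 ^ d) := by
    refine Real.log_nonneg ?_
    nlinarith
  have hCd : 0 ≤ 2 * (d + 1) * C1 d := by positivity
  refine ⟨Real.log (B * 3 ^ d) + 2 * (d + 1) * C1 d + d + 1, by linarith, ?_⟩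
  intro Ω _ Q X u ε ρ δ L R hu hδ hdet hL hLR hρ hcR hR htr
  set c : ℝ := Real.log (B * 3 ^ d) + 2 * (d + 1) * C1 d + d + 1 with hc
  have hL0 : 0 < L := by linarith
  have hRr : (1 : ℝ) ≤ R := by exact_mod_cast hR
  have hR0 : (0 : ℝ) < R := by linarith
  have hdetp : 0 < |(Matrix.of u).det| := hδ.trans_le hdet
  have hdetC : |(Matrix.of u).det| ≤ C1 d := det_le' (Matrix.of u) hu
  have hdC : 0 ≤ 2 * d * C1 d := by positivity
  have hdR : d * (R * ρ) ≤ 1 := by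
    refine le_trans (mul_le_mul_of_nonneg_right ?_ (by positivity)) hcR
    linarith
  have hεs : 0 ≤ ∑ k, ε k := Finset.sum_nonneg fun k _ => subC_nonneg (htr k)
  have : Nonempty (Fin d → Fin R) := ⟨fun _ => ⟨0, hR⟩⟩
  have hBd : (4 * d + 4) ^ d / |(Matrix.of u).det| ≤ B / |(Matrix.of u).det| := by
    refine div_le_div_of_nonneg_right ?_ hdetp.le
    rw [hB]
    nlinarith
  have h1x0 : 1 ≤ B / |(Matrix.of u).det| := by
    rw [le_div_iff₀ hdetp, one_mul]
    refine hdetC.trans ?_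
    rw [hB]
    nlinarith
  have h1x1 : 1 ≤ |(Matrix.of u).det| * (3 * R) ^ d / L ^ d := by
    refine x1_ge δ L _ R hδ hdet hdetC hL (le_trans ?_ hLR) ?_
    · refine mul_le_mul_of_nonneg_right ?_ hL0.le
      have : C1 d ≤ 2 * (d + 1) * C1 d := by nlinarith
      linarith
    · intro h0
      subst h0
      simp
  have hLR2 : (2 * d * C1 d) * L ≤ R * δ := by
    refine le_trans (mul_le_mul_of_nonneg_right ?_ hL0.le) hLR
    have : 2 * d * C1 d ≤ 2 * (d + 1) * C1 d := by nlinarith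
    linarith
  have key := spread Q (K := Fin d → Fin R)
    (fun n a b => ∀ i, |X b i - X a i - ∑ k, ((n k : ℕ) : ℝ) * u k i| ≤ 1)
    (fun _ => R * ∑ k, ε k)
    (fun n => tr_lat Q X u ε ρ R hρ hdR htr n)
    (fun ω k => ⌊X ω k⌋) (fun ω k => ⌊X ω k / L⌋) ⌊B / |(Matrix.of u).det|⌋₊
    ⌊|(Matrix.of u).det| * (3 * R) ^ d / L ^ d⌋₊ ?_ ?_
  · have hcard : (Fintype.card (Fin d → Fin R) : ℝ) = (R : ℝ) ^ d := by
      rw [Fintype.card_fun, Fintype.card_fin, Fintype.card_fin]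
      push_cast
      rfl
    have hcp : (0 : ℝ) < (R : ℝ) ^ d := by positivity
    have hsum : (∑ _k : Fin d → Fin R, R * ∑ k, ε k) / Fintype.card (Fin d → Fin R) =
        R * ∑ k, ε k := by
      rw [Finset.sum_const, Finset.card_univ, nsmul_eq_mul, mul_comm, mul_div_assoc, div_self,
        mul_one]
      rw [hcard]
      exact hcp.ne'
    rw [hsum, hcard, Real.log_pow] at key
    have e0 := Vale.Agent.P127.TV.Lat.log_floor_le h1x0
    have e1 := Vale.Agent.P127.TV.Lat.log_floor_le h1x1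
    refine fin_arith B |(Matrix.of u).det| L R (∑ k, ε k) c d hB1 hdetp hL hRr hεs
      (by linarith) (by linarith) _ ?_
    refine le_trans ?_ key
    linarith
  · intro a b _ _
    refine ⟨univ.filter fun n : Fin d → Fin R => ∃ b', (∀ i, |X b' i - X a i -
      ∑ k, ((n k : ℕ) : ℝ) * u k i| ≤ 1) ∧ (fun k => ⌊X b' k⌋) = fun k => ⌊X b k⌋, ?_, ?_⟩
    · refine Nat.le_floor ((fib_cnt X u R hu hdetp a b _ fun n hn => ?_).trans hBd)
      rw [Finset.mem_filter] at hn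
      exact hn.2
    · intro n b' _ hn hf
      rw [Finset.mem_filter]
      exact ⟨Finset.mem_univ _, b', hn, hf⟩
  · intro a _
    refine ⟨(univ.filter fun b : Ω => ∃ n : Fin d → Fin R, ∀ i, |X b i - X a i -
      ∑ k, ((n k : ℕ) : ℝ) * u k i| ≤ 1).image fun b => (fun k => ⌊X b k / L⌋), ?_, ?_⟩
    · refine Nat.le_floor (crs_cnt X u R δ L hu hδ hdet hL hLR2 a _ fun q hq => ?_)
      rw [Finset.mem_image] at hq
      obtain ⟨b, hb, rfl⟩ := hq
      rw [Finset.mem_filter] at hb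
      obtain ⟨n, hn⟩ := hb.2
      exact ⟨n, b, hn, rfl⟩
    · intro n b _ hn
      rw [Finset.mem_image]
      exact ⟨b, by rw [Finset.mem_filter]; exact ⟨Finset.mem_univ _, n, hn⟩, rfl⟩

end Vale.Agent.P106.U.LatV
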