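import Vale.Agent.P106.U.H377.Lat

/-!
# P106 / U / H377 : near-invariance under maps, quadric motions (two-cap lemma, pieces P1, P3)

* `NI Q σ g ρ ε` : the law of `σ` is invariant under the map `g` up to `ρ` in each coordinate and `ε` in mass.
* `NI.comp`, `NI.inv`, `NI.mono` : calculus for Lipschitz maps.
* state `(x, z, n, c, φ, κ) = Fin 6`; `qm X Z α` : `x += X`, `z += Z`, `n += φ X + κ Z + α X²/2`, `c -= α Z`, `φ += α X`.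
* `qm_comm` : the commutator of two motions is the shift of `n` by `(α₂ - α₁) X₁ X₂`;  `ni_comm`.
* `ni_hex` : motions with two curvatures `β`, `G` at `X`, `X'`, `X + X'` ⇒ shift of `n` by `-(β - G) X X'`.
-/

set_option autoImplicit false

namespace Vale.Agent.P106.U.Quad

open Finset Vale.Agent.P127 Vale.Agent.P127.Stk
open Vale.Agent.P127.TV (Tr SubC spread)

variable {Ω : Type} [Fintype Ω] {ι : Type}

/-- near-invariance of the law of `σ` under the map `g` -/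
def NI (Q : Law Ω) (σ : Ω → ι → ℝ) (g : (ι → ℝ) → ι → ℝ) (ρ ε : ℝ) : Prop :=
  SubC Q Q (fun a b => ∀ i, |σ b i - g (σ a) i| ≤ ρ) ε

/-- Lipschitz in the sup norm -/
def Lip (g : (ι → ℝ) → ι → ℝ) (K : ℝ) : Prop :=
  ∀ x y : ι → ℝ, ∀ r : ℝ, (∀ i, |x i - y i| ≤ r) → ∀ i, |g x i - g y i| ≤ K * r

theorem NI.mono {Q : Law Ω} {σ : Ω → ι → ℝ} {g : (ι → ℝ) → ι → ℝ} {ρ ρ' ε ε' : ℝ}
    (h : NI Q σ g ρ ε) (hρ : ρ ≤ ρ') (hε : ε ≤ ε') : NI Q σ g ρ' ε' :=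
  SubC.mono h (fun _ _ h i => (h i).trans hρ) hε

theorem NI.congr {Q : Law Ω} {σ : Ω → ι → ℝ} {g g' : (ι → ℝ) → ι → ℝ} {ρ ε : ℝ}
    (h : NI Q σ g ρ ε) (hg : ∀ x i, g x i = g' x i) : NI Q σ g' ρ ε :=
  SubC.mono h (fun a b h i => by rw [← hg]; exact h i) le_rfl

theorem NI.comp {Q : Law Ω} {σ : Ω → ι → ℝ} {g g' : (ι → ℝ) → ι → ℝ} {ρ ρ' ε ε' K : ℝ}
    (h : NI Q σ g ρ ε) (h' : NI Q σ g' ρ' ε') (hL : Lip g' K) :
    NI Q σ (fun x => g' (g x)) (ρ' + K * ρ) (ε + ε') := by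
  refine (SubC.comp h h').mono ?_ le_rfl
  rintro a b ⟨m, h1, h2⟩ i
  have e : σ b i - g' (g (σ a)) i = (σ b i - g' (σ m) i) + (g' (σ m) i - g' (g (σ a)) i) := by ring
  rw [e]
  exact (abs_add_le _ _).trans (add_le_add (h2 i) (hL _ _ ρ h1 i))

theorem NI.inv {Q : Law Ω} {σ : Ω → ι → ℝ} {g g' : (ι → ℝ) → ι → ℝ} {ρ ε K : ℝ}
    (h : NI Q σ g ρ ε) (hg : ∀ x i, g' (g x) i = x i) (hL : Lip g' K) :
    NI Q σ g' (K * ρ) ε := by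
  refine (SubC.symm h).mono ?_ le_rfl
  intro a b h1 i
  have h2 := hL (σ a) (g (σ b)) ρ h1 i
  rw [hg] at h2
  rw [abs_sub_comm]
  exact h2

/-- translations -/
theorem NI.tr {Q : Law Ω} {σ : Ω → ι → ℝ} {u : ι → ℝ} {ρ ε : ℝ}
    (h : NI Q σ (fun x i => x i + u i) ρ ε) : Tr Q σ u (fun _ => ρ) ε :=
  SubC.mono h (fun a b h i => by
    have := h i
    rwa [← sub_sub] at this) le_rfl

/-! ### quadric motions: state `(x, z, n, c, φ, κ)` -/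

/-- the motion -/
noncomputable def qm (X Z α : ℝ) (v : Fin 6 → ℝ) : Fin 6 → ℝ :=
  ![v 0 + X, v 1 + Z, v 2 + v 4 * X + v 5 * Z + α * X ^ 2 / 2, v 3 - α * Z, v 4 + α * X, v 5]

/-- shift of `n` -/
def ns (τ : ℝ) (v : Fin 6 → ℝ) : Fin 6 → ℝ := fun i => v i + (if i = 2 then τ else 0)

theorem qm_inv (X Z α : ℝ) (v : Fin 6 → ℝ) (i : Fin 6) : qm (-X) (-Z) α (qm X Z α v) i = v i := by
  fin_cases i <;> simp [qm] <;> ring

theorem qm_inv' (X Z α : ℝ) (v : Fin 6 → ℝ) (i : Fin 6) : qm X Z α (qm (-X) (-Z) α v) i = v i := by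
  fin_cases i <;> simp [qm] <;> ring

/-- **the commutator** -/
theorem qm_comm (X₁ Z₁ α₁ X₂ Z₂ α₂ : ℝ) (v : Fin 6 → ℝ) (i : Fin 6) :
    qm (-X₁) (-Z₁) α₁ (qm (-X₂) (-Z₂) α₂ (qm X₁ Z₁ α₁ (qm X₂ Z₂ α₂ v))) i =
      ns ((α₂ - α₁) * X₁ * X₂) v i := by
  fin_cases i <;> simp [qm, ns] <;> ring

/-- **the hexagon** : `h_X h_X' h_(X+X')⁻¹`, `h_X = g(X,Z;β) g(X,Z;G)⁻¹` -/
theorem qm_hex (X Z X' Z' β G : ℝ) (v : Fin 6 → ℝ) (i : Fin 6) :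
    qm (X + X') (Z + Z') G (qm (-(X + X')) (-(Z + Z')) β
      (qm X Z β (qm (-X) (-Z) G (qm X' Z' β (qm (-X') (-Z') G v))))) i =
      ns (-(β - G) * X * X') v i := by
  fin_cases i <;> simp [qm, ns] <;> ring

theorem qm_lip {X Z α : ℝ} (hX : |X| ≤ 1) (hZ : |Z| ≤ 1) : Lip (qm X Z α) 3 := by
  intro x y r h i
  have hr : 0 ≤ r := (abs_nonneg _).trans (h 0)
  have h0 := h 0
  have h1 := h 1
  have h2 := h 2
  have h3 := h 3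
  have h4 := h 4
  have h5 := h 5
  fin_cases i
  · simp only [qm, Fin.zero_eta, Matrix.cons_val_zero]
    have : x 0 + X - (y 0 + X) = x 0 - y 0 := by ring
    rw [this]
    linarith
  · simp only [qm, Fin.mk_one, Matrix.cons_val_one, Matrix.cons_val_zero]
    have : x 1 + Z - (y 1 + Z) = x 1 - y 1 := by ring
    rw [this]
    linarith
  · show |(x 2 + x 4 * X + x 5 * Z + α * X ^ 2 / 2) - (y 2 + y 4 * X + y 5 * Z + α * X ^ 2 / 2)| ≤ _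
    have e : (x 2 + x 4 * X + x 5 * Z + α * X ^ 2 / 2) - (y 2 + y 4 * X + y 5 * Z + α * X ^ 2 / 2) =
      (x 2 - y 2) + (x 4 - y 4) * X + (x 5 - y 5) * Z := by ring
    have a1 : |(x 4 - y 4) * X| ≤ r * 1 := by
      rw [abs_mul]
      exact mul_le_mul h4 hX (abs_nonneg _) hr
    have a2 : |(x 5 - y 5) * Z| ≤ r * 1 := by
      rw [abs_mul]
      exact mul_le_mul h5 hZ (abs_nonneg _) hr
    rw [e]
    refine (abs_add_le _ _).trans ?_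
    have := abs_add_le (x 2 - y 2) ((x 4 - y 4) * X)
    linarith
  · show |(x 3 - α * Z) - (y 3 - α * Z)| ≤ _
    have : (x 3 - α * Z) - (y 3 - α * Z) = x 3 - y 3 := by ring
    rw [this]
    linarith
  · show |(x 4 + α * X) - (y 4 + α * X)| ≤ _
    have : (x 4 + α * X) - (y 4 + α * X) = x 4 - y 4 := by ring
    rw [this]
    linarith
  · show |x 5 - y 5| ≤ _
    linarith

theorem NI.qinv {Q : Law Ω} {σ : Ω → Fin 6 → ℝ} {X Z α ρ ε : ℝ} (hX : |X| ≤ 1) (hZ : |Z| ≤ 1)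
    (h : NI Q σ (qm X Z α) ρ ε) : NI Q σ (qm (-X) (-Z) α) (3 * ρ) ε :=
  h.inv (qm_inv X Z α) (qm_lip (by rwa [abs_neg]) (by rwa [abs_neg]))

/-- **P1** : two motions with different curvatures give a shift of `n` -/
theorem ni_comm {Q : Law Ω} {σ : Ω → Fin 6 → ℝ} {X₁ Z₁ α₁ X₂ Z₂ α₂ ρ ε₁ ε₂ : ℝ}
    (hX₁ : |X₁| ≤ 1) (hZ₁ : |Z₁| ≤ 1) (hX₂ : |X₂| ≤ 1) (hZ₂ : |Z₂| ≤ 1)
    (h₁ : NI Q σ (qm X₁ Z₁ α₁) ρ ε₁) (h₂ : NI Q σ (qm X₂ Z₂ α₂) ρ ε₂) :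
    NI Q σ (ns ((α₂ - α₁) * X₁ * X₂)) (48 * ρ) (2 * (ε₁ + ε₂)) := by
  have a1 := h₂.comp h₁ (qm_lip hX₁ hZ₁)
  have a2 := a1.comp (h₂.qinv hX₂ hZ₂) (qm_lip (by rwa [abs_neg]) (by rwa [abs_neg]))
  have a3 := a2.comp (h₁.qinv hX₁ hZ₁) (qm_lip (by rwa [abs_neg]) (by rwa [abs_neg]))
  refine (a3.congr fun x i => qm_comm X₁ Z₁ α₁ X₂ Z₂ α₂ x i).mono (le_of_eq ?_) (le_of_eq ?_) <;> ring

/-- **P3** : motions with curvatures `β`, `G` at `X`, `X'`, `X + X'` give a shift of `n` -/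
theorem ni_hex {Q : Law Ω} {σ : Ω → Fin 6 → ℝ} {X Z X' Z' β G ρ ε : ℝ}
    (hX : |X| ≤ 1) (hZ : |Z| ≤ 1) (hX' : |X'| ≤ 1) (hZ' : |Z'| ≤ 1) (hXX : |X + X'| ≤ 1)
    (hZZ : |Z + Z'| ≤ 1) (hβ : NI Q σ (qm X Z β) ρ ε) (hG : NI Q σ (qm X Z G) ρ ε)
    (hβ' : NI Q σ (qm X' Z' β) ρ ε) (hG' : NI Q σ (qm X' Z' G) ρ ε)
    (hβs : NI Q σ (qm (X + X') (Z + Z') β) ρ ε) (hGs : NI Q σ (qm (X + X') (Z + Z') G) ρ ε) :
    NI Q σ (ns (-(β - G) * X * X')) (1000 * ρ) (6 * ε) := by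
  have hρ : 0 ≤ ρ ∨ ρ < 0 := le_or_gt 0 ρ
  have a1 := (hG'.qinv hX' hZ').comp hβ' (qm_lip hX' hZ')
  have a2 := a1.comp (hG.qinv hX hZ) (qm_lip (by rwa [abs_neg]) (by rwa [abs_neg]))
  have a3 := a2.comp hβ (qm_lip hX hZ)
  have a4 := a3.comp (hβs.qinv hXX hZZ) (qm_lip (by rwa [abs_neg]) (by rwa [abs_neg]))
  have a5 := a4.comp hGs (qm_lip hXX hZZ)
  refine SubC.mono (a5.congr fun x i => qm_hex X Z X' Z' β G x i) ?_ (le_of_eq (by ring))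
  intro a b h i
  have h1 := h i
  have h0 : 0 ≤ ρ := by
    have := (abs_nonneg _).trans h1
    linarith
  linarith

/-- two motions with the same curvature compose -/
theorem qm_add (X Z X' Z' α : ℝ) (v : Fin 6 → ℝ) (i : Fin 6) :
    qm X' Z' α (qm X Z α v) i = qm (X + X') (Z + Z') α v i := by
  fin_cases i <;> simp [qm] <;> ring

end Vale.Agent.P106.U.Quad
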